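import Crest.Agent.S0025Lib.Defs

/-! # S0025 WP: the Sylvester phase, and removing repetitions -/

set_option autoImplicit false

namespace Crest.Agent.S0025Lib

open Finset

/-- The ceiling of `b / a`, characterised by inequalities. -/
private lemma exists_ceil (a b : ℕ) (ha : 0 < a) : ∃ m, b ≤ a * m ∧ a * m < b + a := by
  refine ⟨(b + a - 1) / a, ?_, ?_⟩
  · have h1 := Nat.div_add_mod (b + a - 1) a
    have h2 := Nat.mod_lt (b + a - 1) ha
    omega
  · have h1 := Nat.div_add_mod (b + a - 1) a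
    have h2 := Nat.mod_lt (b + a - 1) ha
    omega

private lemma arith_step (a b c a1 : ℕ) (x : ℚ) (hb : 0 < b) (ha1 : a * (c + 1) = b + a1)
    (hx : x = (a1 : ℚ) / ((b * (c + 1) : ℕ) : ℚ)) :
    (1 : ℚ) / ((c + 1 : ℕ) : ℚ) + x = (a : ℚ) / (b : ℚ) := by
  have hmq : ((c : ℚ) + 1) ≠ 0 := by positivity
  have hbq : (b : ℚ) ≠ 0 := by exact_mod_cast hb.ne'
  have e : ((a1 : ℚ)) = (a : ℚ) * ((c : ℚ) + 1) - b := by
    have : ((a * (c + 1) : ℕ) : ℚ) = ((b + a1 : ℕ) : ℚ) := by rw [ha1]
    push_cast at this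
    linarith
  rw [hx, e]
  push_cast
  field_simp
  ring

private lemma pow_step (i L c : ℕ) (hj : 2 ^ (2 ^ i) ≤ L) (hLc : L ≤ c) :
    2 ^ (2 ^ (i + 1)) ≤ (c + 1) * c := by
  have : 2 ^ (2 ^ (i + 1)) = (2 ^ (2 ^ i)) * (2 ^ (2 ^ i)) := by
    rw [← pow_add]; congr 1; ring
  rw [this]
  have h1 : 2 ^ (2 ^ i) ≤ c := le_trans hj hLc
  generalize 2 ^ (2 ^ i) = y at h1
  nlinarith

/-- The invariant form of the greedy algorithm, by strong induction on the numerator. -/
private lemma sylvester_aux (V : ℕ) (b₀ : ℕ) (hb₀ : 0 < b₀) :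
    ∀ (a b L P j : ℕ), a * L < b → 1 ≤ L → P ≤ L → P ≤ V ^ 2 → 0 < P → b = b₀ * P →
      (j = 0 ∨ 2 ^ (2 ^ (j - 1)) ≤ L) →
      ∃ (s : Finset ℕ) (a' b' : ℕ), (∀ n ∈ s, L < n ∧ n ≤ V) ∧
        s.card ≤ Nat.log 2 (Nat.log 2 V + 1) + 3 - j ∧ 0 < b' ∧ b' ≤ b₀ * V ^ 2 ∧ a' * V < b' ∧
        (a' : ℚ) / (b' : ℚ) + ∑ n ∈ s, (1 : ℚ) / (n : ℚ) = (a : ℚ) / (b : ℚ) := by
  intro a
  induction a using Nat.strong_induction_on with
  | _ a ih =>
    intro b L P j haL hL hPL hPV hP hb hj
    have hbpos : 0 < b := by rw [hb]; positivity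
    by_cases hstop : a * V < b
    · refine ⟨∅, a, b, by simp, by simp, hbpos, ?_, hstop, by simp⟩
      rw [hb]; exact Nat.mul_le_mul_left _ hPV
    · have hbV : b ≤ a * V := not_lt.mp hstop
      have ha : 0 < a := by
        rcases Nat.eq_zero_or_pos a with h | h
        · subst h; simp at hbV; omega
        · exact h
      obtain ⟨m, hm1, hm2⟩ := exists_ceil a b ha
      have hLm : L < m := by
        have : a * L < a * m := lt_of_lt_of_le haL hm1
        exact Nat.lt_of_mul_lt_mul_left this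
      have hmV : m ≤ V := by
        have : a * m < a * (V + 1) := by rw [Nat.mul_add, Nat.mul_one]; omega
        have := Nat.lt_of_mul_lt_mul_left this
        omega
      have hm2' : 2 ≤ m := by omega
      obtain ⟨c, rfl⟩ : ∃ c, m = c + 1 := ⟨m - 1, by omega⟩
      have hc : 1 ≤ c := by omega
      have hLc : L ≤ c := by omega
      -- the new numerator
      obtain ⟨a1, ha1⟩ : ∃ a1, a * (c + 1) = b + a1 := ⟨a * (c + 1) - b, by omega⟩
      have ha1a : a1 < a := by omega
      have h_ac : a * c + a = b + a1 := by rw [← ha1]; ring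
      have h1 : a1 * c < b := by
        have : a1 * c ≤ a * c := Nat.mul_le_mul_right _ ha1a.le
        omega
      have hinv : a1 * ((c + 1) * c) < b * (c + 1) := by
        have : a1 * ((c + 1) * c) = (a1 * c) * (c + 1) := by ring
        rw [this]
        exact Nat.mul_lt_mul_of_pos_right h1 (by omega)
      have hL1 : 1 ≤ (c + 1) * c := by nlinarith
      have hP1L : P * (c + 1) ≤ (c + 1) * c := by
        have : P ≤ c := by omega
        nlinarith
      have hP1V : P * (c + 1) ≤ V ^ 2 := by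
        have : (c + 1) * c ≤ V * V := Nat.mul_le_mul hmV (by omega)
        calc P * (c + 1) ≤ (c + 1) * c := hP1L
          _ ≤ V * V := this
          _ = V ^ 2 := by ring
      have hb1 : b * (c + 1) = b₀ * (P * (c + 1)) := by rw [hb]; ring
      have hj1 : j + 1 = 0 ∨ 2 ^ (2 ^ (j + 1 - 1)) ≤ (c + 1) * c := by
        right
        rw [Nat.add_sub_cancel]
        rcases Nat.eq_zero_or_pos j with rfl | hjpos
        · have : (2 : ℕ) ^ (2 ^ 0) = 2 := by norm_num
          rw [this]
          nlinarith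
        · obtain ⟨i, rfl⟩ : ∃ i, j = i + 1 := ⟨j - 1, by omega⟩
          rw [Nat.add_sub_cancel] at hj
          rcases hj with hj | hj
          · omega
          · exact pow_step i L c hj hLc
      obtain ⟨s, a', b', hs, hcard, hb', hb'le, hstop', hsum⟩ :=
        ih a1 ha1a (b * (c + 1)) ((c + 1) * c) (P * (c + 1)) (j + 1) hinv hL1 hP1L hP1V
          (by positivity) hb1 hj1
      have hnotin : c + 1 ∉ s := by
        intro hmem
        have := (hs _ hmem).1
        have h5 : c + 1 ≤ (c + 1) * c := Nat.le_mul_of_pos_right _ (by omega)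
        omega
      refine ⟨insert (c + 1) s, a', b', ?_, ?_, hb', hb'le, hstop', ?_⟩
      · intro n hn
        rcases Finset.mem_insert.mp hn with rfl | hn
        · exact ⟨hLm, hmV⟩
        · have := hs n hn
          have h5 : c + 1 ≤ (c + 1) * c := Nat.le_mul_of_pos_right _ (by omega)
          exact ⟨by have := this.1; omega, this.2⟩
      · rw [Finset.card_insert_of_notMem hnotin]
        have hjle : j ≤ Nat.log 2 (Nat.log 2 V + 1) + 2 := by
          rcases hj with rfl | hj
          · omega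
          · have h2 : 2 ^ (2 ^ (j - 1)) ≤ V := le_trans hj (by omega)
            have h3 : 2 ^ (j - 1) ≤ Nat.log 2 V := Nat.le_log_of_pow_le (by norm_num) h2
            have h4 : j - 1 ≤ Nat.log 2 (Nat.log 2 V + 1) :=
              Nat.le_log_of_pow_le (by norm_num) (by omega)
            omega
        omega
      · rw [Finset.sum_insert hnotin]
        have hs' : (a' : ℚ) / (b' : ℚ) + ∑ n ∈ s, (1 : ℚ) / (n : ℚ)
            = (a1 : ℚ) / ((b * (c + 1) : ℕ) : ℚ) := hsum
        have := arith_step a b c a1 _ hbpos ha1 hs'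
        rw [← this]
        ring

/-- Greedy algorithm until the remainder is `< 1 / V`. With `m = ⌈b / a⌉`, `a ↦ a m - b`, `b ↦ b m`:
successive `m` satisfy `m_{i+1} ≥ m_i (m_i - 1) + 1`, whence `∏_{i ≤ j} m_i ≤ m_j (m_j - 1)`, and `m_j ≤ V` for all terms
used, and `j ≤ log₂ log₂ V + 3`. -/
theorem sylvester (V : ℕ) (hV : 2 ≤ V) (a b : ℕ) (ha : 1 ≤ a) (hab : a < b) :
    ∃ (s : Finset ℕ) (a' b' : ℕ), (∀ n ∈ s, 2 ≤ n ∧ n ≤ V) ∧
      s.card ≤ Nat.log 2 (Nat.log 2 V + 1) + 3 ∧ 0 < b' ∧ b' ≤ b * V ^ 2 ∧ a' * V < b' ∧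
      (a' : ℚ) / (b' : ℚ) + ∑ n ∈ s, (1 : ℚ) / (n : ℚ) = (a : ℚ) / (b : ℚ) := by
  have hb : 0 < b := by omega
  obtain ⟨s, a', b', hs, hcard, hb', hb'le, hstop, hsum⟩ :=
    sylvester_aux V b hb a b 1 1 0 (by omega) le_rfl le_rfl
      (by have : 0 < V ^ 2 := by positivity
          omega) one_pos (by ring) (Or.inl rfl)
  exact ⟨s, a', b', fun n hn => ⟨by have := (hs n hn).1; omega, (hs n hn).2⟩, by simpa using hcard,
    hb', hb'le, hstop, hsum⟩

private lemma uf_cons (a : ℕ) (l : List ℕ) : uf (a :: l) = (1 : ℚ) / (a : ℚ) + uf l := by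
  simp [uf]

private lemma uf_eq (l : List ℕ) : uf l = (l.map fun n : ℕ => (1 : ℚ) / (n : ℚ)).sum := by
  induction l with
  | nil => simp [uf]
  | cons a l ih => rw [uf_cons, ih]; simp

/-- `uf` is invariant under permutation. -/
private lemma uf_perm {l l' : List ℕ} (h : l.Perm l') : uf l = uf l' := by
  rw [uf_eq, uf_eq]
  exact (h.map (fun n : ℕ => (1 : ℚ) / (n : ℚ))).sum_eq

/-- Merge two equal terms `m, m` into `m / 2`. -/
theorem dedupe (k : ℕ) (l : List ℕ) (hl : l.length ≤ k) (h : ∀ n ∈ l, 0 < n ∧ 2 ^ k ∣ n) :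
    ∃ s : Finset ℕ, s.card ≤ k ∧ (∀ n ∈ s, 2 ≤ n) ∧ ∑ n ∈ s, (1 : ℚ) / (n : ℚ) = uf l := by
  induction k generalizing l with
  | zero =>
    have : l = [] := List.length_eq_zero_iff.mp (by omega)
    subst this
    exact ⟨∅, by simp, by simp, by simp [uf]⟩
  | succ k ih =>
    by_cases hnd : l.Nodup
    · refine ⟨l.toFinset, ?_, ?_, ?_⟩
      · exact le_trans (List.toFinset_card_le l) hl
      · intro n hn
        have hn' := h n (List.mem_toFinset.mp hn)
        have h2 : 2 ∣ n := dvd_trans (dvd_pow_self 2 (by omega)) hn'.2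
        have := Nat.le_of_dvd hn'.1 h2
        omega
      · rw [uf_eq]
        exact List.sum_toFinset (fun n : ℕ => (1 : ℚ) / (n : ℚ)) hnd
    · obtain ⟨m, hm⟩ := List.exists_duplicate_iff_not_nodup.mpr hnd
      have hm1 : m ∈ l := hm.mem
      have hm2 : m ∈ l.erase m := by
        rw [List.duplicate_iff_two_le_count] at hm
        refine List.count_pos_iff.mp ?_
        rw [List.count_erase_self]
        omega
      have hp1 : l.Perm (m :: l.erase m) := List.perm_cons_erase hm1
      have hp2 : (l.erase m).Perm (m :: (l.erase m).erase m) := List.perm_cons_erase hm2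
      set t := (l.erase m).erase m with ht
      have hp : l.Perm (m :: m :: t) := hp1.trans (hp2.cons m)
      have hlen : t.length + 2 = l.length := by
        have := hp.length_eq
        simp at this
        omega
      obtain ⟨hm0, c, hc⟩ := h m hm1
      have hm_eq : m = 2 * (2 ^ k * c) := by rw [hc]; ring
      have hcpos : 0 < 2 ^ k * c := by
        rcases Nat.eq_zero_or_pos (2 ^ k * c) with h0 | h0
        · rw [hm_eq, h0] at hm0; simp at hm0
        · exact h0
      have hnew : ∀ n ∈ (2 ^ k * c) :: t, 0 < n ∧ 2 ^ k ∣ n := by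
        intro n hn
        rcases List.mem_cons.mp hn with rfl | hn
        · exact ⟨hcpos, dvd_mul_right _ _⟩
        · have hn' : n ∈ l := hp.symm.subset (List.mem_cons_of_mem _ (List.mem_cons_of_mem _ hn))
          have := h n hn'
          exact ⟨this.1, dvd_trans (pow_dvd_pow 2 (by omega)) this.2⟩
      obtain ⟨s, hs1, hs2, hs3⟩ := ih ((2 ^ k * c) :: t) (by simp; omega) hnew
      refine ⟨s, by omega, hs2, ?_⟩
      rw [hs3, uf_perm hp]
      rw [uf_cons, uf_cons, uf_cons]
      have hq : (((2 ^ k * c : ℕ) : ℚ)) ≠ 0 := by exact_mod_cast hcpos.ne'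
      have hmq : (m : ℚ) = 2 * ((2 ^ k * c : ℕ) : ℚ) := by
        rw [hm_eq]; push_cast; ring
      rw [hmq]
      generalize ((2 ^ k * c : ℕ) : ℚ) = y at hq
      field_simp
      ring

end Crest.Agent.S0025Lib
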