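import Crest.Agent.S0025Lib.ParamChoice
import Crest.Agent.S0025Lib.Sylvester

/-! # S0025: assembly -/

set_option autoImplicit false

namespace Crest.Agent.S0025Lib

open Finset

/-- Assembly at the level of natural numbers. -/
theorem assembly (L l : ℕ) (hL : 2 ^ 100 ≤ L) (hl : l = Nat.log 2 L + 1) (a b : ℕ) (hbL : b < 2 ^ L)
    (ha : 1 ≤ a) (hab : a < b) :
    ∃ S : Finset ℕ, (∀ n ∈ S, 2 ≤ n) ∧ S.card ≤ 23000 * l ∧
      ∑ n ∈ S, (1 : ℚ) / (n : ℚ) = (a : ℚ) / (b : ℚ) := by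
  classical
  obtain ⟨p, hT, hH, hτ, hK₂, hM⟩ := exists_params L l hL hl
  have hsmall := K2Of_small L l hL hl
  have hLpos : 0 < L := lt_of_lt_of_le (by positivity) hL
  have hl100 : 101 ≤ l := by
    rw [hl]
    have : 100 ≤ Nat.log 2 L := by
      rw [Nat.le_log_iff_pow_le (by norm_num) (by omega)]
      exact hL
    omega
  have hLl : L < 2 ^ l := by rw [hl]; exact Nat.lt_pow_succ_log_self (by norm_num) L
  have hK2pos : 1 ≤ K2Of l := by unfold K2Of; omega
  obtain ⟨K2, hK2def⟩ : ∃ K2, K2 = K2Of l := ⟨_, rfl⟩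
  rw [← hK2def] at hK₂ hM hsmall hK2pos
  obtain ⟨V, hV⟩ : ∃ V, V = 2 ^ (K2 + 2 * L) := ⟨_, rfl⟩
  have hV2 : 2 ≤ V := by
    rw [hV]
    calc 2 = 2 ^ 1 := by norm_num
      _ ≤ 2 ^ (K2 + 2 * L) := Nat.pow_le_pow_right (by norm_num) (by omega)
  obtain ⟨s, a', b', hs, hscard, hb'pos, hb'le, ha'V, hsum⟩ := sylvester V hV2 a b ha hab
  have hbpos : 0 < b := by omega
  have hscard' : s.card ≤ l + 5 := by
    have h1 : Nat.log 2 V = K2 + 2 * L := by rw [hV]; exact Nat.log_pow (by norm_num) _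
    have h2 : Nat.log 2 (Nat.log 2 V + 1) ≤ l + 2 := by
      rw [h1]
      apply Nat.le_of_lt_succ
      apply Nat.log_lt_of_lt_pow (by omega)
      calc K2 + 2 * L + 1 < 4 * 2 ^ l := by omega
        _ = 2 ^ (l + 2 + 1) / 2 := by
            rw [show l + 2 + 1 = (l + 2) + 1 by ring, pow_succ, pow_add]; omega
        _ ≤ 2 ^ (l + 2 + 1) := Nat.div_le_self _ _
        _ = 2 ^ (l + 2).succ := rfl
    omega
  have hV2' : V ^ 2 = 2 ^ (2 * K2 + 4 * L) := by rw [hV, ← pow_mul]; congr 1; ring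
  have hb'bits : b' ≤ 2 ^ (L + 2 * K2 + 4 * L) := by
    calc b' ≤ b * V ^ 2 := hb'le
      _ ≤ 2 ^ L * V ^ 2 := Nat.mul_le_mul_right _ hbL.le
      _ = 2 ^ (L + 2 * K2 + 4 * L) := by rw [hV2', ← pow_add]; congr 1; ring
  have hbn : b' ≤ 2 ^ p.H * 2 ^ p.τ := by
    rw [hH, hτ, ← pow_add]
    exact hb'bits.trans (Nat.pow_le_pow_right (by norm_num) (by omega))
  have hVeq : 2 ^ p.K₂ * 2 ^ p.τ = V := by rw [hK₂, hτ, hV, pow_add]
  by_cases ha' : a' = 0
  · refine ⟨s, fun n hn => (hs n hn).1, ?_, ?_⟩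
    · have := hscard'
      nlinarith
    · rw [← hsum, ha']; simp
  · have hRpos : 0 < p.R := by
      unfold Params.R
      have : 0 < oddPrimorial p.T := by
        have : oddPrimorial p.T ≠ 0 := by
          unfold oddPrimorial
          refine Finset.prod_ne_zero_iff.mpr ?_
          intro q hq
          have : q.Prime := by
            simp only [oddPrimes, Finset.mem_filter] at hq
            exact hq.2.1
          exact this.ne_zero
        omega
      positivity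
    have hn0pos : 0 < a' * p.R := Nat.mul_pos (by omega) hRpos
    have hRle : p.R ≤ 2 ^ (20 * L + K2 + 12 * (100 * L * l)) := by
      unfold Params.R
      have h4 : oddPrimorial p.T ^ 3 ≤ 2 ^ (6 * (100 * L * l)) := by
        calc oddPrimorial p.T ^ 3 ≤ (4 ^ p.T) ^ 3 := Nat.pow_le_pow_left (oddPrimorial_le _) 3
          _ = 2 ^ (6 * (100 * L * l)) := by
            rw [hT, show (4 : ℕ) = 2 ^ 2 by norm_num, ← pow_mul, ← pow_mul]
            congr 1; ring
      calc 2 ^ p.M * oddPrimorial p.T ^ 3 ≤ 2 ^ p.M * 2 ^ (6 * (100 * L * l)) :=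
            Nat.mul_le_mul_left _ h4
        _ = 2 ^ (20 * L + K2 + 12 * (100 * L * l)) := by
            rw [hM, ← pow_add]; congr 1; ring
    have hfuel : a' * p.R ≤ 2 ^ p.H * (2 ^ (p.τ - 1)) ^ (28 + 1200 * l) := by
      have h1 : a' ≤ b' := by
        have : a' * 1 ≤ a' * V := Nat.mul_le_mul_left _ (by omega)
        omega
      have h2 : a' * p.R ≤ 2 ^ (L + 2 * K2 + 4 * L) * 2 ^ (20 * L + K2 + 12 * (100 * L * l)) :=
        Nat.mul_le_mul (h1.trans hb'bits) hRle
      refine h2.trans ?_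
      rw [← pow_add, hH, hτ, ← pow_mul, ← pow_add]
      apply Nat.pow_le_pow_right (by norm_num)
      have h3 : L * (28 + 1200 * l) ≤ (2 * L - 1) * (28 + 1200 * l) :=
        Nat.mul_le_mul_right _ (by omega)
      have h4 : L * (28 + 1200 * l) = 28 * L + 12 * (100 * L * l) := by ring
      omega
    have hvac : a' * p.R ≤ 2 ^ p.H → Good p.S (a' * p.R) := by
      intro h
      exfalso
      have h1 : 2 ^ p.M ≤ p.R := by
        unfold Params.R
        have : 1 ≤ oddPrimorial p.T ^ 3 := by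
          apply Nat.one_le_pow
          have : oddPrimorial p.T ≠ 0 := by
            unfold oddPrimorial
            refine Finset.prod_ne_zero_iff.mpr ?_
            intro q hq
            have : q.Prime := by
              simp only [oddPrimes, Finset.mem_filter] at hq
              exact hq.2.1
            exact this.ne_zero
          omega
        exact Nat.le_mul_of_pos_right _ this
      have h2 : p.R ≤ a' * p.R := Nat.le_mul_of_pos_left _ (by omega)
      have h3 : 2 ^ p.H < 2 ^ p.M := Nat.pow_lt_pow_right (by norm_num) (by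
        have := p.hM
        rw [hH, hM]; rw [hK₂] at *; omega)
      omega
    have hnV : a' * p.R * (2 ^ p.K₂ * 2 ^ p.τ) ≤ b' * p.R := by
      rw [hVeq]
      calc a' * p.R * V = (a' * V) * p.R := by ring
        _ ≤ b' * p.R := Nat.mul_le_mul_right _ ha'V.le
    have hrep := main_induction p hb'pos hbn (28 + 1200 * l) (a' * p.R) hn0pos hfuel hvac hnV
    obtain ⟨l', hl'len, hl'mem, hl'sum⟩ := hrep
    have hl'len' : l'.length ≤ K2 := by
      rw [hK2def]; unfold K2Of; exact hl'len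
    have hl'mem' : ∀ n ∈ l', 0 < n ∧ 2 ^ K2 ∣ n := by
      intro n hn
      have := hl'mem n hn
      rwa [hK₂] at this
    obtain ⟨s₂, hs₂card, hs₂ge, hs₂sum⟩ := dedupe K2 l' hl'len' hl'mem'
    have hratio : (a' * p.R : ℕ) / ((b' * p.R : ℕ) : ℚ) = (a' : ℚ) / (b' : ℚ) := by
      have hR : (p.R : ℚ) ≠ 0 := by exact_mod_cast hRpos.ne'
      have hb : (b' : ℚ) ≠ 0 := by exact_mod_cast hb'pos.ne'
      push_cast
      field_simp
    have hs₂sum' : ∑ n ∈ s₂, (1 : ℚ) / (n : ℚ) = (a' : ℚ) / (b' : ℚ) := by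
      rw [hs₂sum, hl'sum]; exact_mod_cast hratio
    have hdisj : Disjoint s s₂ := by
      rw [Finset.disjoint_left]
      intro n hn hn2
      have h1 : n ≤ V := (hs n hn).2
      have h2 : (1 : ℚ) / (n : ℚ) ≤ ∑ m ∈ s₂, (1 : ℚ) / (m : ℚ) :=
        Finset.single_le_sum (f := fun m : ℕ => (1 : ℚ) / (m : ℚ)) (fun i _ => by positivity) hn2
      rw [hs₂sum'] at h2
      have hnpos : (0 : ℚ) < n := by
        have := hs₂ge n hn2
        exact_mod_cast (by omega : 0 < n)
      have hb'q : (0 : ℚ) < b' := by exact_mod_cast hb'pos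
      rw [div_le_div_iff₀ hnpos hb'q] at h2
      have h3 : b' ≤ a' * n := by
        have : (b' : ℚ) ≤ (a' : ℚ) * n := by linarith
        exact_mod_cast this
      have h4 : a' * n ≤ a' * V := Nat.mul_le_mul_left _ h1
      omega
    refine ⟨s ∪ s₂, ?_, ?_, ?_⟩
    · intro n hn
      rcases Finset.mem_union.mp hn with h | h
      · exact (hs n h).1
      · exact hs₂ge n h
    · have h1 : (s ∪ s₂).card ≤ s.card + s₂.card := Finset.card_union_le _ _
      have h2 : K2 = 19 * (28 + 1200 * l) + 18 := hK2def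
      omega
    · rw [Finset.sum_union hdisj, hs₂sum', ← hsum]; ring

/-- `Nat.log` versus `Real.log`. -/
theorem natLog_mul_le (n : ℕ) (hn : 0 < n) : (Nat.log 2 n : ℝ) ≤ 2 * Real.log n := by
  have h1 : 2 ^ Nat.log 2 n ≤ n := Nat.pow_log_le_self 2 hn.ne'
  have h2 : ((2 : ℝ) ^ Nat.log 2 n) ≤ n := by exact_mod_cast h1
  have h3 : Real.log ((2 : ℝ) ^ Nat.log 2 n) ≤ Real.log n :=
    Real.log_le_log (by positivity) h2
  rw [Real.log_pow] at h3
  have h4 : (1 / 2 : ℝ) ≤ Real.log 2 := by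
    have := Real.log_two_gt_d9; linarith
  have h5 : (0 : ℝ) ≤ Nat.log 2 n := by positivity
  nlinarith

/-- The statement of S0025. -/
theorem main :
    ∃ C : ℝ, ∃ b₀ : ℕ, ∀ (a b : ℕ), b₀ ≤ b → 1 ≤ a → a < b →
      ∃ S : Finset ℕ, (∀ n ∈ S, 2 ≤ n) ∧ (S.card : ℝ) ≤ C * Real.log (Real.log (b : ℝ)) ∧
        ∑ n ∈ S, (1 : ℚ) / (n : ℚ) = (a : ℚ) / (b : ℚ) := by
  obtain ⟨N, hN⟩ : ∃ N : ℕ, 2 ^ 100 ≤ N := ⟨_, le_rfl⟩
  refine ⟨69000, 2 ^ N, ?_⟩
  intro a b hb ha hab
  obtain ⟨L, hLdef⟩ : ∃ L, L = Nat.log 2 b + 1 := ⟨_, rfl⟩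
  obtain ⟨l, hldef⟩ : ∃ l, l = Nat.log 2 L + 1 := ⟨_, rfl⟩
  have hbpos : 0 < b := by omega
  have hb1 : 2 ^ 100 ≤ Nat.log 2 b := by
    refine hN.trans ?_
    rw [Nat.le_log_iff_pow_le (by norm_num) (by omega)]
    exact hb
  have hL : 2 ^ 100 ≤ L := by omega
  have hbL : b < 2 ^ L := by rw [hLdef]; exact Nat.lt_pow_succ_log_self (by norm_num) b
  obtain ⟨S, hS1, hS2, hS3⟩ := assembly L l hL hldef a b hbL ha hab
  refine ⟨S, hS1, ?_, hS3⟩
  -- real estimates
  obtain ⟨x, hx⟩ : ∃ x, x = Real.log (b : ℝ) := ⟨_, rfl⟩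
  have hLle : (L : ℝ) ≤ 3 * x := by
    have h1 := natLog_mul_le b hbpos
    have h2 : ((2 : ℝ) ^ 100) ≤ (Nat.log 2 b : ℝ) := by exact_mod_cast hb1
    rw [hLdef]; push_cast; rw [hx]
    have h3 : (1 : ℝ) ≤ Real.log b := by nlinarith
    linarith
  have hxlarge : (2 : ℝ) ^ 90 ≤ x := by
    have h1 := natLog_mul_le b hbpos
    have h2 : ((2 : ℝ) ^ 100) ≤ (Nat.log 2 b : ℝ) := by exact_mod_cast hb1
    have h3 : (2 : ℝ) ^ 90 ≤ (2 : ℝ) ^ 100 / 2 := by norm_num
    rw [hx]; linarith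
  have hLpos : 0 < L := by omega
  have hlle : (l : ℝ) ≤ 3 * Real.log x := by
    have h1 := natLog_mul_le L hLpos
    have h2 : Real.log (L : ℝ) ≤ Real.log (3 * x) :=
      Real.log_le_log (by exact_mod_cast hLpos) hLle
    have hx0 : 0 < x := lt_of_lt_of_le (by positivity) hxlarge
    rw [Real.log_mul (by norm_num) hx0.ne'] at h2
    have h3 : Real.log 3 ≤ 3 / 2 := by
      have : Real.log 3 ≤ 3 - 1 := Real.log_le_sub_one_of_pos (by norm_num)
      have h4 : Real.log 3 = Real.log 2 + Real.log (3 / 2) := by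
        rw [← Real.log_mul (by norm_num) (by norm_num)]; norm_num
      have h5 : Real.log (3 / 2) ≤ 3 / 2 - 1 := Real.log_le_sub_one_of_pos (by norm_num)
      have h6 := Real.log_two_lt_d9
      linarith
    have h5 : (5 : ℝ) ≤ Real.log x := by
      have h6 : Real.log (2 ^ 90) ≤ Real.log x := Real.log_le_log (by positivity) hxlarge
      rw [Real.log_pow] at h6
      have h7 := Real.log_two_gt_d9
      norm_num at h6
      linarith
    rw [hldef]; push_cast
    linarith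
  have hSc : (S.card : ℝ) ≤ 23000 * (l : ℝ) := by exact_mod_cast hS2
  rw [← hx]
  linarith

end Crest.Agent.S0025Lib

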