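import Crest.Agent.S0025Lib.Defs

/-! # S0025 WP: counting the moduli with many collisions -/

set_option autoImplicit false

namespace Crest.Agent.S0025Lib

open Finset ArithmeticFunction
open scoped ArithmeticFunction.Omega

open Classical in
/-- the weighted number of rough divisors -/
noncomputable def W (T N : ℕ) : ℝ :=
  ∑ d ∈ N.divisors.filter (fun d => Rough T d), (1 / 16 : ℝ) ^ (Ω d)

lemma rough_of_dvd {T d e : ℕ} (h : Rough T e) (hd : d ∣ e) : Rough T d :=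
  fun p hp hpd => h p hp (hpd.trans hd)

lemma W_mul_le {T p N : ℕ} (hp : p.Prime) (hN : N ≠ 0) :
    W T (p * N) ≤ (17 / 16 : ℝ) * W T N := by
  classical
  unfold W
  set D := N.divisors.filter (fun d => Rough T d) with hD
  have hsub : (p * N).divisors.filter (fun d => Rough T d) ⊆ D ∪ D.image (fun d => p * d) := by
    intro d hd
    simp only [mem_filter, Nat.mem_divisors] at hd
    obtain ⟨⟨hd1, _⟩, hr⟩ := hd
    by_cases hpd : p ∣ d
    · obtain ⟨e, rfl⟩ := hpd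
      have he : e ∣ N := Nat.dvd_of_mul_dvd_mul_left hp.pos hd1
      apply mem_union_right
      refine mem_image.mpr ⟨e, ?_, rfl⟩
      simp only [hD, mem_filter, Nat.mem_divisors]
      exact ⟨⟨he, hN⟩, rough_of_dvd hr (Dvd.intro_left p rfl)⟩
    · have hc : Nat.Coprime d p := ((Nat.Prime.coprime_iff_not_dvd hp).mpr hpd).symm
      have he : d ∣ N := hc.dvd_of_dvd_mul_left hd1
      apply mem_union_left
      simp only [hD, mem_filter, Nat.mem_divisors]
      exact ⟨⟨he, hN⟩, hr⟩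
  have hnn : ∀ d : ℕ, (0 : ℝ) ≤ (1 / 16 : ℝ) ^ (Ω d) := fun d => by positivity
  have h1 := Finset.sum_le_sum_of_subset_of_nonneg hsub (fun d _ _ => hnn d)
  have h2 : ∑ d ∈ D ∪ D.image (fun d => p * d), (1 / 16 : ℝ) ^ (Ω d)
      ≤ ∑ d ∈ D, (1 / 16 : ℝ) ^ (Ω d) + ∑ d ∈ D.image (fun d => p * d), (1 / 16 : ℝ) ^ (Ω d) := by
    have := Finset.sum_union_inter (s₁ := D) (s₂ := D.image (fun d => p * d))
      (f := fun d => (1 / 16 : ℝ) ^ (Ω d))
    have h3 : 0 ≤ ∑ d ∈ D ∩ D.image (fun d => p * d), (1 / 16 : ℝ) ^ (Ω d) :=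
      Finset.sum_nonneg fun d _ => hnn d
    linarith
  have h4 : ∑ d ∈ D.image (fun d => p * d), (1 / 16 : ℝ) ^ (Ω d)
      = (1 / 16 : ℝ) * ∑ d ∈ D, (1 / 16 : ℝ) ^ (Ω d) := by
    rw [Finset.sum_image (fun a _ b _ hab => Nat.eq_of_mul_eq_mul_left hp.pos hab), Finset.mul_sum]
    refine Finset.sum_congr rfl fun d hd => ?_
    have hd0 : d ≠ 0 := by
      simp only [hD, mem_filter, Nat.mem_divisors] at hd
      exact fun h => hN (by simpa [h] using hd.1.1)
    rw [cardFactors_mul hp.ne_zero hd0, cardFactors_apply_prime hp, pow_add, pow_one]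
  linarith

lemma W_le (T a : ℕ) :
    ∀ N : ℕ, 1 ≤ N → N ≤ T ^ a → W T N ≤ (17 / 16 : ℝ) ^ a := by
  classical
  induction a with
  | zero =>
    intro N h1 h2
    have hN : N = 1 := by simpa using le_antisymm (by simpa using h2) h1
    subst hN
    simp only [W, Nat.divisors_one, pow_zero]
    rw [Finset.filter_singleton]
    split_ifs <;> simp
  | succ a ih =>
    intro N h1 h2
    by_cases hex : ∃ p : ℕ, p.Prime ∧ p ∣ N ∧ T < p
    · obtain ⟨p, hp, ⟨M, rfl⟩, hpT⟩ := hex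
      have hM0 : M ≠ 0 := by rintro rfl; simp at h1
      have hM : M ≤ T ^ a := by
        by_contra hcon
        push Not at hcon
        have : T * T ^ a < p * M := by
          calc T * T ^ a ≤ p * T ^ a := Nat.mul_le_mul_right _ hpT.le
            _ < p * M := Nat.mul_lt_mul_of_pos_left hcon hp.pos
        rw [pow_succ'] at h2
        omega
      have h3 := W_mul_le (T := T) hp hM0
      have h4 := ih M (Nat.one_le_iff_ne_zero.mpr hM0) hM
      calc W T (p * M) ≤ (17 / 16 : ℝ) * W T M := h3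
        _ ≤ (17 / 16 : ℝ) * (17 / 16 : ℝ) ^ a := by gcongr
        _ = (17 / 16 : ℝ) ^ (a + 1) := by rw [pow_succ']
    · push Not at hex
      have hN0 : N ≠ 0 := by omega
      have hsub : N.divisors.filter (fun d => Rough T d) ⊆ {1} := by
        intro d hd
        simp only [mem_filter, Nat.mem_divisors] at hd
        obtain ⟨⟨hd1, _⟩, hr⟩ := hd
        by_contra hne
        simp only [mem_singleton] at hne
        obtain ⟨p, hp, hpd⟩ := Nat.exists_prime_and_dvd hne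
        exact absurd (hr p hp hpd) (not_lt.mpr (hex p hp (hpd.trans hd1)))
      have h5 : W T N ≤ ∑ d ∈ ({1} : Finset ℕ), (1 / 16 : ℝ) ^ (Ω d) := by
        unfold W
        exact Finset.sum_le_sum_of_subset_of_nonneg hsub (fun d _ _ => by positivity)
      have h6 : (∑ d ∈ ({1} : Finset ℕ), (1 / 16 : ℝ) ^ (Ω d)) = 1 := by simp
      have h7 : (1 : ℝ) ≤ (17 / 16 : ℝ) ^ (a + 1) := one_le_pow₀ (by norm_num)
      linarith

/-- a rough number below `2^(h+1)` has at most `h/100` prime factors -/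
lemma omega_le_of_rough {T d h : ℕ} (hT : 2 ^ 100 ≤ T) (hr : Rough T d) (hd0 : d ≠ 0)
    (hd : d < 2 ^ (h + 1)) : Ω d ≤ h / 100 := by
  have h1 : (2 ^ 100) ^ (Ω d) ≤ d := by
    rw [cardFactors_apply]
    conv_rhs => rw [← Nat.prod_primeFactorsList hd0]
    apply List.pow_card_le_prod
    intro x hx
    have hxp := Nat.prime_of_mem_primeFactorsList hx
    have hxd := Nat.dvd_of_mem_primeFactorsList hx
    exact hT.trans (hr x hxp hxd).le
  have h2 : 2 ^ (100 * Ω d) < 2 ^ (h + 1) := by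
    rw [pow_mul]; exact h1.trans_lt hd
  have h3 : 100 * Ω d < h + 1 := (Nat.pow_lt_pow_iff_right (by norm_num)).mp h2
  rw [Nat.le_div_iff_mul_le (by norm_num)]
  omega

/-- the number of rough divisors below `2^(h+1)` -/
lemma card_rough_divisors_le {T : ℕ} (hT : 2 ^ 100 ≤ T) (h a N : ℕ) (h1 : 1 ≤ N) (h2 : N ≤ T ^ a)
    [DecidablePred fun d => Rough T d ∧ d < 2 ^ (h + 1)] :
    ((N.divisors.filter fun d => Rough T d ∧ d < 2 ^ (h + 1)).card : ℝ)
      ≤ (16 : ℝ) ^ (h / 100) * (17 / 16 : ℝ) ^ a := by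
  classical
  have hW := W_le T a N h1 h2
  set D := N.divisors.filter fun d => Rough T d ∧ d < 2 ^ (h + 1) with hD
  have h3 : ∑ d ∈ D, (1 / 16 : ℝ) ^ (Ω d) ≤ W T N := by
    unfold W
    apply Finset.sum_le_sum_of_subset_of_nonneg
    · intro d hd
      simp only [hD, mem_filter, Nat.mem_divisors] at hd ⊢
      exact ⟨hd.1, hd.2.1⟩
    · intro d _ _; positivity
  have h4 : (D.card : ℝ) * (1 / 16 : ℝ) ^ (h / 100) ≤ ∑ d ∈ D, (1 / 16 : ℝ) ^ (Ω d) := by
    rw [← nsmul_eq_mul]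
    apply Finset.card_nsmul_le_sum
    intro d hd
    simp only [hD, mem_filter, Nat.mem_divisors] at hd
    have hd0 : d ≠ 0 := by
      rintro rfl
      simp at hd
    exact pow_le_pow_of_le_one (by norm_num) (by norm_num)
      (omega_le_of_rough hT hd.2.1 hd0 hd.2.2)
  have h5 : (D.card : ℝ) * (1 / 16 : ℝ) ^ (h / 100) ≤ (17 / 16 : ℝ) ^ a := by linarith
  have h6 : (16 : ℝ) ^ (h / 100) * (1 / 16 : ℝ) ^ (h / 100) = 1 := by
    rw [← mul_pow]; norm_num
  calc (D.card : ℝ) = (16 : ℝ) ^ (h / 100) * ((D.card : ℝ) * (1 / 16 : ℝ) ^ (h / 100)) := by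
        rw [mul_left_comm, h6, mul_one]
    _ ≤ _ := by gcongr

/-- divisors of a product of `a` distinct primes -/
lemma card_divisors_prod {A : Finset ℕ} (hA : ∀ p ∈ A, p.Prime) :
    (Nat.divisors (∏ p ∈ A, p)).card = 2 ^ A.card := by
  classical
  induction A using Finset.induction_on with
  | empty => simp
  | insert p A hp ih =>
    have hA' : ∀ q ∈ A, q.Prime := fun q hq => hA q (mem_insert_of_mem hq)
    have hpp : p.Prime := hA p (mem_insert_self _ _)
    rw [Finset.prod_insert hp, card_insert_of_notMem hp]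
    have hc : Nat.Coprime p (∏ q ∈ A, q) := by
      apply Nat.Coprime.prod_right
      intro q hq
      exact (Nat.coprime_primes hpp (hA' q hq)).mpr (fun h => hp (h ▸ hq))
    rw [Nat.Coprime.card_divisors_mul hc, ih hA', hpp.divisors,
      Finset.card_pair hpp.one_lt.ne]
    ring

/-- double counting of the collisions -/
lemma card_collide_le {T : ℕ} (hT : 2 ^ 100 ≤ T) {h a : ℕ} (X : Finset ℕ)
    (hX : X.card = 2 ^ a) (hX1 : ∀ x ∈ X, 1 ≤ x ∧ x ≤ T ^ a) (B : Finset ℕ)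
    (hB : ∀ q ∈ B, Rough T q ∧ q < 2 ^ (h + 1) ∧ 2 * 2 ^ a < coll X q) :
    (B.card : ℝ) ≤ 2 ^ a * ((16 : ℝ) ^ (h / 100) * (17 / 16 : ℝ) ^ a) := by
  classical
  set Dm : ℝ := (16 : ℝ) ^ (h / 100) * (17 / 16 : ℝ) ^ a with hDm
  have hDm0 : 0 ≤ Dm := by positivity
  -- off-diagonal pairs
  set Off : Finset (ℕ × ℕ) := (X ×ˢ X).filter fun z => z.1 ≠ z.2 with hOff
  have hOffcard : (Off.card : ℝ) ≤ (2 ^ a : ℝ) ^ 2 := by
    have : Off.card ≤ (X ×ˢ X).card := Finset.card_filter_le _ _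
    rw [Finset.card_product, hX] at this
    have h2 : (Off.card : ℝ) ≤ ((2 ^ a * 2 ^ a : ℕ) : ℝ) := by exact_mod_cast this
    calc (Off.card : ℝ) ≤ ((2 ^ a * 2 ^ a : ℕ) : ℝ) := h2
      _ = (2 ^ a : ℝ) ^ 2 := by push_cast; ring
  -- each bad modulus has many off-diagonal collisions
  have hq : ∀ q ∈ B, 2 ^ a ≤ (Off.filter fun z => z.1 ≡ z.2 [MOD q]).card := by
    intro q hqB
    have h3 := (hB q hqB).2.2
    have h4 : coll X q ≤ X.card + (Off.filter fun z => z.1 ≡ z.2 [MOD q]).card := by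
      unfold coll
      have hsub : ((X ×ˢ X).filter fun z => z.1 ≡ z.2 [MOD q]) ⊆
          (X.image fun x => (x, x)) ∪ (Off.filter fun z => z.1 ≡ z.2 [MOD q]) := by
        intro z hz
        simp only [mem_filter, mem_product] at hz
        by_cases hzz : z.1 = z.2
        · apply mem_union_left
          exact mem_image.mpr ⟨z.1, hz.1.1, Prod.ext rfl hzz⟩
        · apply mem_union_right
          simp only [hOff, mem_filter, mem_product]
          exact ⟨⟨hz.1, hzz⟩, hz.2⟩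
      calc _ ≤ _ := Finset.card_le_card hsub
        _ ≤ _ := Finset.card_union_le _ _
        _ ≤ _ := by
          have := Finset.card_image_le (s := X) (f := fun x => (x, x))
          omega
    rw [hX] at h4
    omega
  -- bound for one pair
  have hpair : ∀ z ∈ Off, (((B.filter fun q => z.1 ≡ z.2 [MOD q]).card : ℕ) : ℝ) ≤ Dm := by
    intro z hz
    simp only [hOff, mem_filter, mem_product] at hz
    obtain ⟨⟨hz1, hz2⟩, hne⟩ := hz
    set N := ((z.2 : ℤ) - z.1).natAbs with hN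
    have hN1 : 1 ≤ N := by
      have := (hX1 _ hz1).1; have := (hX1 _ hz2).1; omega
    have hN2 : N ≤ T ^ a := by
      have h5 := (hX1 _ hz1); have h6 := (hX1 _ hz2)
      generalize T ^ a = K at *
      omega
    have hsub : (B.filter fun q => z.1 ≡ z.2 [MOD q]) ⊆
        N.divisors.filter fun d => Rough T d ∧ d < 2 ^ (h + 1) := by
      intro q hq'
      simp only [mem_filter] at hq'
      obtain ⟨hqB, hmod⟩ := hq'
      simp only [mem_filter, Nat.mem_divisors]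
      refine ⟨⟨?_, by omega⟩, (hB q hqB).1, (hB q hqB).2.1⟩
      have := (Nat.modEq_iff_dvd).mp hmod
      exact Int.natCast_dvd.mp this
    calc (((B.filter fun q => z.1 ≡ z.2 [MOD q]).card : ℕ) : ℝ)
        ≤ ((N.divisors.filter fun d => Rough T d ∧ d < 2 ^ (h + 1)).card : ℝ) := by
          exact_mod_cast Finset.card_le_card hsub
      _ ≤ Dm := card_rough_divisors_le hT h a N hN1 hN2
  -- double counting
  have hdc : ∑ q ∈ B, (Off.filter fun z => z.1 ≡ z.2 [MOD q]).card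
      = ∑ z ∈ Off, (B.filter fun q => z.1 ≡ z.2 [MOD q]).card :=
    Finset.sum_card_bipartiteAbove_eq_sum_card_bipartiteBelow _
  have h7 : (B.card : ℝ) * 2 ^ a ≤ (2 ^ a : ℝ) ^ 2 * Dm := by
    have h8 : (B.card * 2 ^ a : ℕ) ≤ ∑ q ∈ B, (Off.filter fun z => z.1 ≡ z.2 [MOD q]).card := by
      rw [← smul_eq_mul]
      exact Finset.card_nsmul_le_sum _ _ _ hq
    have h9 : ((B.card * 2 ^ a : ℕ) : ℝ)
        ≤ ((∑ z ∈ Off, (B.filter fun q => z.1 ≡ z.2 [MOD q]).card : ℕ) : ℝ) := by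
      rw [← hdc]; exact_mod_cast h8
    push_cast at h9
    calc (B.card : ℝ) * 2 ^ a ≤ ∑ z ∈ Off, ((B.filter fun q => z.1 ≡ z.2 [MOD q]).card : ℝ) := h9
      _ ≤ ∑ _z ∈ Off, Dm := Finset.sum_le_sum hpair
      _ = (Off.card : ℝ) * Dm := by rw [Finset.sum_const, nsmul_eq_mul]
      _ ≤ _ := by gcongr
  have hpos : (0 : ℝ) < 2 ^ a := by positivity
  have h10 : (B.card : ℝ) * 2 ^ a ≤ (2 ^ a * Dm) * 2 ^ a := by
    calc _ ≤ _ := h7
      _ = _ := by ring
  exact le_of_mul_le_mul_right h10 hpos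

/-- the elementary inequality at the end -/
lemma numerics (h : ℕ) :
    (2 : ℝ) * (2 ^ aOf h * ((16 : ℝ) ^ (h / 100) * (17 / 16 : ℝ) ^ aOf h)) ≤ 16 * (7 / 4 : ℝ) ^ h := by
  set a := aOf h with ha
  have h3a : 3 * a ≤ 2 * h + 4 := by
    have : a = (2 * h + 4) / 3 := rfl
    omega
  -- `(17/8)^a ≤ c0 * c1^h`
  have h1 : (17 / 8 : ℝ) ^ a ≤ (137 / 50 : ℝ) * (1653 / 1000 : ℝ) ^ h := by
    have h2 : ((17 / 8 : ℝ) ^ a) ^ 3 ≤ ((137 / 50 : ℝ) * (1653 / 1000 : ℝ) ^ h) ^ 3 := by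
      calc ((17 / 8 : ℝ) ^ a) ^ 3 = (17 / 8 : ℝ) ^ (3 * a) := by rw [← pow_mul, mul_comm]
        _ ≤ (17 / 8 : ℝ) ^ (2 * h + 4) := pow_le_pow_right₀ (by norm_num) h3a
        _ = (17 / 8 : ℝ) ^ 4 * ((17 / 8 : ℝ) ^ 2) ^ h := by rw [pow_add, pow_mul]; ring
        _ ≤ (137 / 50 : ℝ) ^ 3 * ((1653 / 1000 : ℝ) ^ 3) ^ h := by
            gcongr
            · norm_num
            · norm_num
        _ = _ := by rw [mul_pow, ← pow_mul, ← pow_mul, mul_comm 3 h]
    exact le_of_pow_le_pow_left₀ (by norm_num) (by positivity) h2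
  -- `16^(h/100) ≤ c2^h`
  have h4 : (16 : ℝ) ^ (h / 100) ≤ (103 / 100 : ℝ) ^ h := by
    calc (16 : ℝ) ^ (h / 100) ≤ ((103 / 100 : ℝ) ^ 100) ^ (h / 100) := by
          gcongr; norm_num
      _ = (103 / 100 : ℝ) ^ (100 * (h / 100)) := by rw [pow_mul]
      _ ≤ (103 / 100 : ℝ) ^ h := pow_le_pow_right₀ (by norm_num) (Nat.mul_div_le h 100)
  have h5 : (2 : ℝ) ^ a * (17 / 16 : ℝ) ^ a = (17 / 8 : ℝ) ^ a := by
    rw [← mul_pow]; norm_num
  calc (2 : ℝ) * (2 ^ a * ((16 : ℝ) ^ (h / 100) * (17 / 16 : ℝ) ^ a))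
      = 2 * ((16 : ℝ) ^ (h / 100) * (2 ^ a * (17 / 16 : ℝ) ^ a)) := by ring
    _ = 2 * ((16 : ℝ) ^ (h / 100) * (17 / 8 : ℝ) ^ a) := by rw [h5]
    _ ≤ 2 * ((103 / 100 : ℝ) ^ h * ((137 / 50 : ℝ) * (1653 / 1000 : ℝ) ^ h)) := by gcongr
    _ = (137 / 25 : ℝ) * ((103 / 100 * (1653 / 1000) : ℝ)) ^ h := by rw [mul_pow]; ring
    _ ≤ 16 * (7 / 4 : ℝ) ^ h := by
        gcongr
        · norm_num
        · norm_num

/-- properties of a divisor set of `a` primes `≤ T` -/
lemma divisors_props {T a : ℕ} {A : Finset ℕ} (hA : A ⊆ oddPrimes T) (hc : A.card = a) :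
    (Nat.divisors (∏ p ∈ A, p)).card = 2 ^ a ∧
      ∀ x ∈ Nat.divisors (∏ p ∈ A, p), 1 ≤ x ∧ x ≤ T ^ a := by
  have hp : ∀ p ∈ A, p.Prime ∧ p ≤ T := by
    intro p hp
    have := hA hp
    simp only [oddPrimes, mem_filter, mem_range] at this
    exact ⟨this.2.1, by omega⟩
  refine ⟨by rw [card_divisors_prod (fun p h => (hp p h).1), hc], ?_⟩
  intro x hx
  have hx' := Nat.mem_divisors.mp hx
  refine ⟨Nat.pos_of_dvd_of_pos hx'.1 (Nat.pos_of_ne_zero hx'.2), ?_⟩
  calc x ≤ ∏ p ∈ A, p := Nat.le_of_dvd (Nat.pos_of_ne_zero hx'.2) hx'.1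
    _ ≤ ∏ _p ∈ A, T := Finset.prod_le_prod' fun p h => (hp p h).2
    _ = T ^ a := by rw [Finset.prod_const, hc]

/-- The number of rough moduli in `[2^h, 2^(h+1))` which are not `GoodMod`.
For `x ≠ x'` in `X_a`, `N = |x - x'| ∈ [1, T^a]`, and the number of rough divisors of `N` below `2^(h+1)`
is at most `16^(h/100) * (17/16)^a`: with `W(N) = ∑_{d ∣ N rough} 16^(-Ω(d))` one has `W(N) ≤ (17/16)^a` by induction
on `a`, (`N ≤ T^a`, remove one prime factor `> T`) and `Ω(d) ≤ h / 100` for `d < 2^(h+1)` rough. Double counting the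
off-diagonal collisions gives `#bad * 2^a ≤ 2^(2a) * 16^(h/100) * (17/16)^a` (for `X`, same for `Y`). -/
theorem card_badSet_le {T Amax : ℕ} (S : Split T Amax) (hT : 2 ^ 100 ≤ T) {h : ℕ}
    (hh : aOf h ≤ Amax) : ((badSet S h).card : ℝ) ≤ 16 * (7 / 4 : ℝ) ^ h := by
  classical
  set a := aOf h with ha
  obtain ⟨hX, hX1⟩ := divisors_props (S.A_sub a hh) (S.A_card a hh)
  obtain ⟨hY, hY1⟩ := divisors_props (S.B_sub a hh) (S.B_card a hh)
  have hq : ∀ q ∈ badSet S h, Rough T q ∧ q < 2 ^ (h + 1) ∧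
      (2 * 2 ^ a < coll (S.X a) q ∨ 2 * 2 ^ a < coll (S.Y a) q) := by
    intro q hq
    unfold badSet at hq
    simp only [mem_filter, mem_Ico] at hq
    obtain ⟨⟨h1, h2⟩, h3, h4⟩ := hq
    refine ⟨h3, h2, ?_⟩
    have hlog : Nat.log 2 q = h := Nat.log_eq_of_pow_le_of_lt_pow h1 h2
    unfold GoodMod at h4
    rw [hlog, ← ha] at h4
    by_contra hcon
    push Not at hcon
    exact h4 hcon
  set BX := (badSet S h).filter fun q => 2 * 2 ^ a < coll (S.X a) q with hBX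
  set BY := (badSet S h).filter fun q => 2 * 2 ^ a < coll (S.Y a) q with hBY
  have hsub : badSet S h ⊆ BX ∪ BY := by
    intro q hq'
    rcases (hq q hq').2.2 with h1 | h1
    · exact mem_union_left _ (mem_filter.mpr ⟨hq', h1⟩)
    · exact mem_union_right _ (mem_filter.mpr ⟨hq', h1⟩)
  have h1 : ((BX.card : ℕ) : ℝ) ≤ 2 ^ a * ((16 : ℝ) ^ (h / 100) * (17 / 16 : ℝ) ^ a) := by
    apply card_collide_le hT (S.X a) hX hX1
    intro q hq'
    have := mem_filter.mp hq'
    exact ⟨(hq q this.1).1, (hq q this.1).2.1, this.2⟩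
  have h2 : ((BY.card : ℕ) : ℝ) ≤ 2 ^ a * ((16 : ℝ) ^ (h / 100) * (17 / 16 : ℝ) ^ a) := by
    apply card_collide_le hT (S.Y a) hY hY1
    intro q hq'
    have := mem_filter.mp hq'
    exact ⟨(hq q this.1).1, (hq q this.1).2.1, this.2⟩
  have h3 : ((badSet S h).card : ℝ) ≤ (BX.card : ℝ) + BY.card := by
    have : (badSet S h).card ≤ BX.card + BY.card :=
      (Finset.card_le_card hsub).trans (Finset.card_union_le _ _)
    exact_mod_cast this
  have h4 := numerics h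
  rw [← ha] at h4
  linarith

end Crest.Agent.S0025Lib
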