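import Mathlib

/-!
# S0025: Egyptian fractions with `O(log log b)` terms — definitions

See `results.approach` of row S0025 in the team database for the blueprint (helper40).
-/

set_option autoImplicit false

namespace Crest.Agent.S0025Lib

open Finset

/-- all prime factors of `n` exceed `T` -/
def Rough (T n : ℕ) : Prop := ∀ p : ℕ, p.Prime → p ∣ n → T < p

/-- number of pairs of `X` colliding modulo `q` -/
def coll (X : Finset ℕ) (q : ℕ) : ℕ := ((X ×ˢ X).filter fun z => z.1 ≡ z.2 [MOD q]).card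

/-- the exponent `a` used at dyadic scale `h`; `2 * h + 2 ≤ 3 * aOf h ≤ 2 * h + 4` -/
def aOf (h : ℕ) : ℕ := (2 * h + 4) / 3

/-- the odd primes `≤ T` -/
def oddPrimes (T : ℕ) : Finset ℕ := (Finset.range (T + 1)).filter fun p => p.Prime ∧ p ≠ 2

/-- the product of the odd primes `≤ T` -/
def oddPrimorial (T : ℕ) : ℕ := ∏ p ∈ oddPrimes T, p

/-- for each `a ≤ Amax`, two disjoint sets of `a` odd primes `≤ T` -/
structure Split (T Amax : ℕ) where
  A : ℕ → Finset ℕ
  B : ℕ → Finset ℕ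
  A_sub : ∀ a ≤ Amax, A a ⊆ oddPrimes T
  B_sub : ∀ a ≤ Amax, B a ⊆ oddPrimes T
  disj : ∀ a ≤ Amax, Disjoint (A a) (B a)
  A_card : ∀ a ≤ Amax, (A a).card = a
  B_card : ∀ a ≤ Amax, (B a).card = a

variable {T Amax : ℕ}

/-- `X_a`: the divisors of `∏ 𝒜_a` -/
def Split.X (S : Split T Amax) (a : ℕ) : Finset ℕ := Nat.divisors (∏ p ∈ S.A a, p)

/-- `Y_a`: the divisors of `∏ ℬ_a` -/
def Split.Y (S : Split T Amax) (a : ℕ) : Finset ℕ := Nat.divisors (∏ p ∈ S.B a, p)

/-- `q` has few collisions in `X_a` and `Y_a`, for `a` adapted to the size of `q` -/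
def GoodMod (S : Split T Amax) (q : ℕ) : Prop :=
  coll (S.X (aOf (Nat.log 2 q))) q ≤ 2 * 2 ^ aOf (Nat.log 2 q) ∧
  coll (S.Y (aOf (Nat.log 2 q))) q ≤ 2 * 2 ^ aOf (Nat.log 2 q)

/-- `m` is cube-free at odd primes `≤ T`, and all its rough divisors `> 1` are `GoodMod` -/
def Good (S : Split T Amax) (m : ℕ) : Prop :=
  (∀ p ∈ oddPrimes T, ¬ p ^ 3 ∣ m) ∧ ∀ q : ℕ, q ∣ m → 1 < q → Rough T q → GoodMod S q

open Classical in
/-- rough non-`GoodMod` moduli at dyadic scale `h` -/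
noncomputable def badSet (S : Split T Amax) (h : ℕ) : Finset ℕ :=
  (Finset.Ico (2 ^ h) (2 ^ (h + 1))).filter fun q => Rough T q ∧ ¬ GoodMod S q

/-- the sum of the reciprocals of a list of naturals -/
def uf (l : List ℕ) : ℚ := (l.map fun n => (1 : ℚ) / (n : ℚ)).sum

/-- `x` is a sum of at most `L` unit fractions (repetitions allowed) whose denominators are
positive multiples of `2 ^ K` -/
def Rep (K L : ℕ) (x : ℚ) : Prop :=
  ∃ l : List ℕ, l.length ≤ L ∧ (∀ n ∈ l, 0 < n ∧ 2 ^ K ∣ n) ∧ uf l = x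

end Crest.Agent.S0025Lib
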