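import Crest.Agent.S0025Lib.Fourier

/-! # S0025 WP: exponential sum over the divisors of the primorial; the finishing tuple -/

set_option autoImplicit false

namespace Crest.Agent.S0025Lib

open Finset

/-- Sum over the divisors of a product of coprime numbers. -/
theorem sum_divisors_mul_of_coprime {m n : ℕ} (hmn : m.Coprime n) (f : ℕ → ℂ) :
    ∑ d ∈ (m * n).divisors, f d = ∑ x ∈ m.divisors, ∑ y ∈ n.divisors, f (x * y) := by
  rw [Nat.divisors_mul, Finset.mul_def, Finset.sum_image hmn.mul_injOn_divisors,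
    Finset.sum_product]

/-- A product of distinct primes has `2 ^ card` divisors. -/
theorem card_divisors_prod_primes (s : Finset ℕ) (hs : ∀ p ∈ s, p.Prime) :
    (∏ p ∈ s, p).divisors.card = 2 ^ s.card := by
  induction s using Finset.induction_on with
  | empty => simp
  | insert p s hp ih =>
    have hpp : p.Prime := hs p (Finset.mem_insert_self p s)
    have hs' : ∀ q ∈ s, q.Prime := fun q hq => hs q (Finset.mem_insert_of_mem hq)
    have hcop : p.Coprime (∏ q ∈ s, q) := by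
      apply Nat.Coprime.prod_right
      intro q hq
      refine (Nat.coprime_primes hpp (hs' q hq)).2 ?_
      rintro rfl
      exact hp hq
    rw [Finset.prod_insert hp, hcop.card_divisors_mul, ih hs', Finset.card_insert_of_notMem hp,
      hpp.divisors, Finset.card_pair hpp.one_lt.ne, pow_succ, mul_comm]

theorem coprime_prod_prod_of_disjoint {s t : Finset ℕ} (hs : ∀ p ∈ s, p.Prime)
    (ht : ∀ p ∈ t, p.Prime) (hst : Disjoint s t) : (∏ p ∈ s, p).Coprime (∏ p ∈ t, p) := by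
  apply Nat.Coprime.prod_left
  intro p hp
  apply Nat.Coprime.prod_right
  intro q hq
  refine (Nat.coprime_primes (hs p hp) (ht q hq)).2 ?_
  rintro rfl
  exact (Finset.disjoint_left.1 hst hp) hq

/-- **L3**: `∑_{d ∣ P} ξ^d = ∑_{r ∣ Rest} ∑_{x ∈ X_a} ∑_{y ∈ Y_a} (ξ^r)^(x y)`, each inner sum bounded by
`bilinear_bound` since `gcd(r, q) = 1`. -/
theorem expsum_bound {T Amax : ℕ} (S : Split T Amax) {q a : ℕ} {ξ : ℂ}
    (ha : a ≤ Amax) (hrough : Rough T q) (hq1 : 1 < q) (hξ : IsPrimitiveRoot ξ q)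
    (hX : coll (S.X a) q ≤ 2 * 2 ^ a) (hY : coll (S.Y a) q ≤ 2 * 2 ^ a)
    (hqa : q ^ 2 ≤ 2 ^ (3 * a)) :
    ‖∑ d ∈ (oddPrimorial T).divisors, ξ ^ d‖ ^ 18 * (q : ℝ) ^ 3 ≤
      2 ^ 18 * ((oddPrimorial T).divisors.card : ℝ) ^ 18 := by
  classical
  have hq0 : 0 < q := by omega
  -- primes
  have hprime : ∀ p ∈ oddPrimes T, p.Prime := by
    intro p hp
    exact (Finset.mem_filter.1 hp).2.1
  have hle : ∀ p ∈ oddPrimes T, p ≤ T := by
    intro p hp
    have := Finset.mem_range.1 (Finset.mem_filter.1 hp).1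
    omega
  set sA := S.A a with hsA
  set sB := S.B a with hsB
  set sR := oddPrimes T \ (sA ∪ sB) with hsR
  have hAsub : sA ⊆ oddPrimes T := S.A_sub a ha
  have hBsub : sB ⊆ oddPrimes T := S.B_sub a ha
  have hdisj : Disjoint sA sB := S.disj a ha
  have hRsub : sR ⊆ oddPrimes T := Finset.sdiff_subset
  have hAp : ∀ p ∈ sA, p.Prime := fun p hp => hprime p (hAsub hp)
  have hBp : ∀ p ∈ sB, p.Prime := fun p hp => hprime p (hBsub hp)
  have hRp : ∀ p ∈ sR, p.Prime := fun p hp => hprime p (hRsub hp)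
  set A := ∏ p ∈ sA, p with hA
  set B := ∏ p ∈ sB, p with hB
  set R := ∏ p ∈ sR, p with hR
  have hABunion : ∏ p ∈ sA ∪ sB, p = A * B := Finset.prod_union hdisj
  have hP : oddPrimorial T = (A * B) * R := by
    unfold oddPrimorial
    rw [← hABunion]
    have hsub : sA ∪ sB ⊆ oddPrimes T := Finset.union_subset hAsub hBsub
    rw [hR, hsR, mul_comm, Finset.prod_sdiff hsub]
  have hcAB : A.Coprime B := coprime_prod_prod_of_disjoint hAp hBp hdisj
  have hcABR : (A * B).Coprime R := by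
    rw [← hABunion]
    refine coprime_prod_prod_of_disjoint ?_ hRp ?_
    · intro p hp
      exact hprime p ((Finset.union_subset hAsub hBsub) hp)
    · exact Finset.disjoint_sdiff
  -- cardinalities
  have hcardA : A.divisors.card = 2 ^ a := by
    rw [hA, card_divisors_prod_primes sA hAp, hsA, S.A_card a ha]
  have hcardB : B.divisors.card = 2 ^ a := by
    rw [hB, card_divisors_prod_primes sB hBp, hsB, S.B_card a ha]
  have hcardP : (oddPrimorial T).divisors.card = 2 ^ a * 2 ^ a * R.divisors.card := by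
    rw [hP, hcABR.card_divisors_mul, hcAB.card_divisors_mul, hcardA, hcardB]
  -- the decomposition of the sum
  have hsum : ∑ d ∈ (oddPrimorial T).divisors, ξ ^ d =
      ∑ r ∈ R.divisors, ∑ x ∈ A.divisors, ∑ y ∈ B.divisors, (ξ ^ r) ^ (x * y) := by
    rw [hP, sum_divisors_mul_of_coprime hcABR,
      sum_divisors_mul_of_coprime hcAB (fun z => ∑ y ∈ R.divisors, ξ ^ (z * y))]
    calc ∑ x ∈ A.divisors, ∑ y ∈ B.divisors, ∑ r ∈ R.divisors, ξ ^ (x * y * r)
        = ∑ x ∈ A.divisors, ∑ r ∈ R.divisors, ∑ y ∈ B.divisors, ξ ^ (x * y * r) :=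
          Finset.sum_congr rfl fun x _ => Finset.sum_comm
      _ = ∑ r ∈ R.divisors, ∑ x ∈ A.divisors, ∑ y ∈ B.divisors, ξ ^ (x * y * r) :=
          Finset.sum_comm
      _ = _ := by
          refine Finset.sum_congr rfl fun r _ => Finset.sum_congr rfl fun x _ =>
            Finset.sum_congr rfl fun y _ => ?_
          rw [← pow_mul, mul_comm r]
  -- each divisor of `R` is coprime to `q`
  have hcop : ∀ r ∈ R.divisors, Nat.Coprime r q := by
    intro r hr
    have hrR : r ∣ R := Nat.dvd_of_mem_divisors hr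
    refine Nat.coprime_of_dvd fun p hp hpr hpq => ?_
    have hpR : p ∣ R := hpr.trans hrR
    have hT : T < p := hrough p hp hpq
    obtain ⟨p', hp', hpp'⟩ := (Prime.dvd_finsetProd_iff hp.prime _).1 hpR
    have : p = p' := (Nat.prime_dvd_prime_iff_eq hp (hRp p' hp')).1 hpp'
    subst this
    exact absurd (hle p (hRsub hp')) (by omega)
  -- the bound on each inner sum
  set M : ℝ := (q : ℝ) * (2 * 2 ^ a) * (2 * 2 ^ a) with hM
  have hM0 : 0 ≤ M := by positivity
  have hinner : ∀ r ∈ R.divisors,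
      ‖∑ x ∈ A.divisors, ∑ y ∈ B.divisors, (ξ ^ r) ^ (x * y)‖ ≤ Real.sqrt M := by
    intro r hr
    have hprim : IsPrimitiveRoot (ξ ^ r) q := hξ.pow_of_coprime r (hcop r hr)
    have hb := bilinear_bound hq0 hprim A.divisors B.divisors
    apply Real.le_sqrt_of_sq_le
    refine hb.trans ?_
    have hX' : (coll A.divisors q : ℝ) ≤ 2 * 2 ^ a := by exact_mod_cast hX
    have hY' : (coll B.divisors q : ℝ) ≤ 2 * 2 ^ a := by exact_mod_cast hY
    rw [hM]
    have hq' : (0 : ℝ) ≤ q := by positivity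
    have h2 : (0 : ℝ) ≤ 2 * 2 ^ a := by positivity
    have h3 : (0 : ℝ) ≤ coll A.divisors q := by positivity
    exact mul_le_mul (mul_le_mul_of_nonneg_left hX' hq') hY' (by positivity) (by positivity)
  set D : ℝ := (R.divisors.card : ℝ) with hD
  have hD0 : 0 ≤ D := by positivity
  have hnorm : ‖∑ d ∈ (oddPrimorial T).divisors, ξ ^ d‖ ≤ D * Real.sqrt M := by
    rw [hsum]
    refine (norm_sum_le _ _).trans ?_
    refine (Finset.sum_le_card_nsmul _ _ _ hinner).trans ?_
    rw [nsmul_eq_mul]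
  set s : ℝ := ‖∑ d ∈ (oddPrimorial T).divisors, ξ ^ d‖ with hs
  have hs0 : 0 ≤ s := norm_nonneg _
  have hs2 : s ^ 2 ≤ D ^ 2 * M := by
    have := pow_le_pow_left₀ hs0 hnorm 2
    rwa [mul_pow, Real.sq_sqrt hM0] at this
  have hs18 : s ^ 18 ≤ (D ^ 2 * M) ^ 9 := by
    have := pow_le_pow_left₀ (by positivity : 0 ≤ s ^ 2) hs2 9
    rwa [← pow_mul] at this
  have hqa' : (q : ℝ) ^ 12 ≤ (2 : ℝ) ^ (18 * a) := by
    have h1 : ((q : ℝ) ^ 2) ≤ (2 : ℝ) ^ (3 * a) := by exact_mod_cast hqa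
    have := pow_le_pow_left₀ (by positivity : (0 : ℝ) ≤ (q : ℝ) ^ 2) h1 6
    rw [← pow_mul, ← pow_mul] at this
    have e : 3 * a * 6 = 18 * a := by ring
    rwa [e] at this
  have hcardP' : (((oddPrimorial T).divisors.card : ℕ) : ℝ) = 2 ^ a * 2 ^ a * D := by
    rw [hcardP]; push_cast; rfl
  rw [hcardP']
  have hq3 : (0 : ℝ) ≤ (q : ℝ) ^ 3 := by positivity
  calc s ^ 18 * (q : ℝ) ^ 3 ≤ (D ^ 2 * M) ^ 9 * (q : ℝ) ^ 3 :=
        mul_le_mul_of_nonneg_right hs18 hq3
    _ = 2 ^ 18 * (2 : ℝ) ^ (18 * a) * D ^ 18 * (q : ℝ) ^ 12 := by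
        rw [hM]; ring
    _ ≤ 2 ^ 18 * (2 : ℝ) ^ (18 * a) * D ^ 18 * (2 : ℝ) ^ (18 * a) :=
        mul_le_mul_of_nonneg_left hqa' (by positivity)
    _ = 2 ^ 18 * (2 ^ a * 2 ^ a * D) ^ 18 := by ring

end Crest.Agent.S0025Lib
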