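import Crest.Agent.S0025Lib.ExpSum

/-! # S0025 WP: the finishing tuple -/

set_option autoImplicit false

namespace Crest.Agent.S0025Lib

open Finset

/-- telescoping bound for `∑ 1 / m²`. -/
lemma sum_inv_sq_Ioc_le {T : ℕ} (hT : 0 < T) {N : ℕ} (hN : T ≤ N) :
    ∑ m ∈ Finset.Ioc T N, (1 : ℝ) / (m : ℝ) ^ 2 ≤ 1 / T - 1 / N := by
  induction N, hN using Nat.le_induction with
  | base => simp
  | succ N hN ih =>
    rw [Finset.sum_Ioc_succ_top hN]
    have hN0 : (0 : ℝ) < N := by exact_mod_cast lt_of_lt_of_le hT hN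
    have h1 : (1 : ℝ) / ((N + 1 : ℕ) : ℝ) ^ 2 ≤ 1 / N - 1 / ((N + 1 : ℕ) : ℝ) := by
      push_cast
      rw [div_sub_div _ _ hN0.ne' (by positivity), div_le_div_iff₀ (by positivity) (by positivity)]
      nlinarith
    linarith

/-- at most `m` values of `c` have `q / gcd(c, q) = m`. -/
lemma card_fiber_ord_le (q m : ℕ) :
    (((Finset.range q).erase 0).filter fun c => q / Nat.gcd c q = m).card ≤ m := by
  have hsub : ((Finset.range q).erase 0).filter (fun c => q / Nat.gcd c q = m) ⊆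
      (Finset.range m).image (fun j => j * (q / m)) := by
    intro c hc
    simp only [Finset.mem_filter, Finset.mem_erase, Finset.mem_range] at hc
    obtain ⟨⟨hc0, hcq⟩, hm⟩ := hc
    have hq : 0 < q := by omega
    have hgd : Nat.gcd c q ∣ q := Nat.gcd_dvd_right c q
    have hgc : Nat.gcd c q ∣ c := Nat.gcd_dvd_left c q
    have hg : 0 < Nat.gcd c q := Nat.gcd_pos_of_pos_right c hq
    have hqeq : q = m * Nat.gcd c q := by
      rw [← hm]; exact (Nat.div_mul_cancel hgd).symm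
    have hm0 : 0 < m := by
      rcases Nat.eq_zero_or_pos m with h | h
      · rw [h] at hqeq; omega
      · exact h
    have hdiv : q / m = Nat.gcd c q := Nat.div_eq_of_eq_mul_right hm0 hqeq
    refine Finset.mem_image.2 ⟨c / Nat.gcd c q, ?_, ?_⟩
    · rw [Finset.mem_range]
      apply (Nat.div_lt_iff_lt_mul hg).2
      rw [← hqeq]; exact hcq
    · rw [hdiv]; exact Nat.div_mul_cancel hgc
  calc _ ≤ ((Finset.range m).image (fun j => j * (q / m))).card := Finset.card_le_card hsub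
    _ ≤ (Finset.range m).card := Finset.card_image_le
    _ = m := Finset.card_range m

/-- the sum of the `1 / ord(c)³` is at most `1 / T`. -/
lemma sum_inv_ord_le {T q : ℕ} (hT : 0 < T)
    (hord : ∀ c ∈ (Finset.range q).erase 0, T < q / Nat.gcd c q) :
    ∑ c ∈ (Finset.range q).erase 0, (1 : ℝ) / ((q / Nat.gcd c q : ℕ) : ℝ) ^ 3 ≤ 1 / T := by
  classical
  rw [Finset.sum_comp (fun m : ℕ => (1 : ℝ) / (m : ℝ) ^ 3) (fun c => q / Nat.gcd c q)]
  have hsub : ((Finset.range q).erase 0).image (fun c => q / Nat.gcd c q) ⊆ Finset.Ioc T (max T q) := by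
    intro m hm
    obtain ⟨c, hc, rfl⟩ := Finset.mem_image.1 hm
    exact Finset.mem_Ioc.2 ⟨hord c hc, le_max_of_le_right (Nat.div_le_self _ _)⟩
  calc _ ≤ ∑ m ∈ ((Finset.range q).erase 0).image (fun c => q / Nat.gcd c q),
          (1 : ℝ) / (m : ℝ) ^ 2 := by
        refine Finset.sum_le_sum fun m hm => ?_
        obtain ⟨c, hc, rfl⟩ := Finset.mem_image.1 hm
        set m := q / Nat.gcd c q with hmdef
        have hm0 : (0 : ℝ) < m := by
          have := hord c hc
          exact_mod_cast lt_of_le_of_lt (Nat.zero_le T) this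
        rw [nsmul_eq_mul]
        have hcard : ((((Finset.range q).erase 0).filter fun c => q / Nat.gcd c q = m).card : ℝ) ≤ m := by
          exact_mod_cast card_fiber_ord_le q m
        calc _ ≤ (m : ℝ) * ((1 : ℝ) / (m : ℝ) ^ 3) :=
              mul_le_mul_of_nonneg_right hcard (by positivity)
          _ = (1 : ℝ) / (m : ℝ) ^ 2 := by field_simp
    _ ≤ ∑ m ∈ Finset.Ioc T (max T q), (1 : ℝ) / (m : ℝ) ^ 2 :=
        Finset.sum_le_sum_of_subset_of_nonneg hsub fun _ _ _ => by positivity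
    _ ≤ 1 / T - 1 / (max T q : ℕ) := sum_inv_sq_Ioc_le hT (le_max_left _ _)
    _ ≤ 1 / T := by
        have : (0 : ℝ) ≤ 1 / (max T q : ℕ) := by positivity
        linarith

/-- `ζ^c` is a primitive root of order `q / gcd(c, q)`. -/
lemma isPrimitiveRoot_pow_ord {ζ : ℂ} {q c : ℕ} (hq : 0 < q) (hζ : IsPrimitiveRoot ζ q) :
    IsPrimitiveRoot (ζ ^ c) (q / Nat.gcd c q) := by
  have hg : 0 < Nat.gcd c q := Nat.gcd_pos_of_pos_right c hq
  have h1 : IsPrimitiveRoot (ζ ^ Nat.gcd c q) (q / Nat.gcd c q) :=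
    hζ.pow hq (Nat.mul_div_cancel' (Nat.gcd_dvd_right c q)).symm
  have h2 := h1.pow_of_coprime (c / Nat.gcd c q) (Nat.coprime_div_gcd_div_gcd hg)
  rwa [← pow_mul, Nat.mul_div_cancel' (Nat.gcd_dvd_left c q)] at h2

/-- **L4**: from the exponential sum bound for every nontrivial divisor of `q` to an
18-tuple of divisors of `P` whose sum is divisible by `q`.  For `c ≠ 0`, `ζ^c` is a primitive root of
order `q' = q / gcd(c, q)`, at most `q'` values of `c` share the same `q'`, and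
`∑_{m > T} m^(-2) ≤ 1 / T`. -/
theorem finishing_tuple {T Amax H : ℕ} (S : Split T Amax) (hT : 2 ^ 18 < T) (hA : aOf H ≤ Amax)
    {q : ℕ} (hq : 0 < q) (hqH : q ≤ 2 ^ H) (hrough : Rough T q)
    (hgood : ∀ q' : ℕ, q' ∣ q → 1 < q' → GoodMod S q') :
    ∃ f : Fin 18 → ℕ, (∀ i, f i ∣ oddPrimorial T) ∧ q ∣ ∑ i, f i := by
  classical
  have hT0 : 0 < T := lt_of_le_of_lt (Nat.zero_le _) hT
  have hP : oddPrimorial T ≠ 0 := by
    refine (Finset.prod_pos fun p hp => ?_).ne'
    exact (Finset.mem_filter.1 hp).2.1.pos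
  set D := (oddPrimorial T).divisors with hD
  have hDpos : 0 < D.card := Finset.card_pos.2 ⟨1, Nat.one_mem_divisors.2 hP⟩
  have hζ := Complex.isPrimitiveRoot_exp q hq.ne'
  set ζ := Complex.exp (2 * Real.pi * Complex.I / q) with hζdef
  -- facts about the order of `ζ^c`
  have hordprop : ∀ c ∈ (Finset.range q).erase 0,
      q / Nat.gcd c q ∣ q ∧ 1 < q / Nat.gcd c q := by
    intro c hc
    obtain ⟨hc0, hcq⟩ := Finset.mem_erase.1 hc
    rw [Finset.mem_range] at hcq
    have hgd := Nat.gcd_dvd_right c q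
    have hgpos : 0 < Nat.gcd c q := Nat.gcd_pos_of_pos_right c hq
    have hgle : Nat.gcd c q ≤ c := Nat.gcd_le_left q (Nat.pos_of_ne_zero hc0)
    refine ⟨Nat.div_dvd_of_dvd hgd, ?_⟩
    obtain ⟨k, hk⟩ := hgd
    have hdk : q / Nat.gcd c q = k := Nat.div_eq_of_eq_mul_right hgpos hk
    rw [hdk]
    by_contra hk1
    have hk2 : k ≤ 1 := by omega
    have : q ≤ Nat.gcd c q * 1 := by
      calc q = Nat.gcd c q * k := hk
        _ ≤ Nat.gcd c q * 1 := Nat.mul_le_mul_left _ hk2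
    omega
  have hordT : ∀ c ∈ (Finset.range q).erase 0, T < q / Nat.gcd c q := by
    intro c hc
    obtain ⟨hd, h1⟩ := hordprop c hc
    obtain ⟨p, hp, hpd⟩ := Nat.exists_prime_and_dvd (show q / Nat.gcd c q ≠ 1 by omega)
    have := hrough p hp (hpd.trans hd)
    exact lt_of_lt_of_le this (Nat.le_of_dvd (by omega) hpd)
  have hterm : ∀ c ∈ (Finset.range q).erase 0,
      ‖∑ d ∈ D, ζ ^ (c * d)‖ ^ 18 ≤
        (2 : ℝ) ^ 18 * (D.card : ℝ) ^ 18 * ((1 : ℝ) / ((q / Nat.gcd c q : ℕ) : ℝ) ^ 3) := by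
    intro c hc
    obtain ⟨hd, h1⟩ := hordprop c hc
    set q' := q / Nat.gcd c q with hq'
    have hq'le : q' ≤ q := Nat.le_of_dvd hq hd
    have hq'pos : (0 : ℝ) < q' := by exact_mod_cast (by omega : 0 < q')
    have hgm := hgood q' hd h1
    set h := Nat.log 2 q' with hh
    have hle : h ≤ H := by
      have : q' ≤ 2 ^ H := hq'le.trans hqH
      have := Nat.log_mono_right (b := 2) this
      rwa [Nat.log_pow (by norm_num)] at this
    have ha : aOf h ≤ Amax := by
      refine le_trans ?_ hA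
      unfold aOf
      omega
    have hqa : q' ^ 2 ≤ 2 ^ (3 * aOf h) := by
      have hlt : q' < 2 ^ (h + 1) := Nat.lt_pow_succ_log_self (by norm_num) q'
      have h3 : 2 * h + 2 ≤ 3 * aOf h := by
        unfold aOf
        omega
      calc q' ^ 2 ≤ (2 ^ (h + 1)) ^ 2 := Nat.pow_le_pow_left hlt.le 2
        _ = 2 ^ (2 * h + 2) := by rw [← pow_mul]; congr 1; ring
        _ ≤ 2 ^ (3 * aOf h) := Nat.pow_le_pow_right (by norm_num) h3
    have hb := expsum_bound S (q := q') (a := aOf h) (ξ := ζ ^ c) ha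
      (fun p hp hpd => hrough p hp (hpd.trans hd)) h1 (isPrimitiveRoot_pow_ord hq hζ) hgm.1 hgm.2 hqa
    have heq : ∑ d ∈ D, ζ ^ (c * d) = ∑ d ∈ D, (ζ ^ c) ^ d :=
      Finset.sum_congr rfl fun d _ => pow_mul ζ c d
    rw [heq, mul_one_div, le_div_iff₀ (by positivity)]
    exact hb
  have key : ∑ c ∈ (Finset.range q).erase 0, ‖∑ d ∈ D, ζ ^ (c * d)‖ ^ 18 < (D.card : ℝ) ^ 18 := by
    have hAp : (0 : ℝ) < (D.card : ℝ) ^ 18 := by positivity
    have hT' : ((2 : ℝ) ^ 18) < T := by exact_mod_cast hT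
    have hT0' : (0 : ℝ) < T := by exact_mod_cast hT0
    calc _ ≤ ∑ c ∈ (Finset.range q).erase 0,
          (2 : ℝ) ^ 18 * (D.card : ℝ) ^ 18 * ((1 : ℝ) / ((q / Nat.gcd c q : ℕ) : ℝ) ^ 3) :=
          Finset.sum_le_sum hterm
      _ = (2 : ℝ) ^ 18 * (D.card : ℝ) ^ 18 *
          ∑ c ∈ (Finset.range q).erase 0, (1 : ℝ) / ((q / Nat.gcd c q : ℕ) : ℝ) ^ 3 := by
          rw [Finset.mul_sum]
      _ ≤ (2 : ℝ) ^ 18 * (D.card : ℝ) ^ 18 * (1 / T) :=
          mul_le_mul_of_nonneg_left (sum_inv_ord_le hT0 hordT) (by positivity)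
      _ < (D.card : ℝ) ^ 18 := by
          rw [mul_one_div, div_lt_iff₀ hT0']
          nlinarith
  obtain ⟨f, hf, hsum⟩ := exists_tuple_of_fourier hq hζ D key
  exact ⟨f, fun i => Nat.dvd_of_mem_divisors (hf i), hsum⟩

end Crest.Agent.S0025Lib
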