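import Crest.Agent.S0025Lib.FinTuple

/-! # S0025 WP: writing `m / E` as 18 unit fractions, for `m` good -/

set_option autoImplicit false

namespace Crest.Agent.S0025Lib

open Finset

/-- Splitting off the `T`-smooth part. -/
private theorem exists_smooth_rough (T : ℕ) :
    ∀ m : ℕ, 0 < m → ∃ s q : ℕ, m = s * q ∧ Rough T q ∧ ∀ p : ℕ, p.Prime → p ∣ s → p ≤ T := by
  intro m
  induction m using Nat.strong_induction_on with
  | _ m ih =>
    intro hm
    by_cases h1 : m = 1
    · subst h1
      refine ⟨1, 1, rfl, ?_, ?_⟩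
      · intro p hp hd
        exact absurd (Nat.le_of_dvd one_pos hd) (by have := hp.two_le; omega)
      · intro p hp hd
        exact absurd (Nat.le_of_dvd one_pos hd) (by have := hp.two_le; omega)
    · have hp := Nat.minFac_prime h1
      obtain ⟨m', hm'⟩ := Nat.minFac_dvd m
      have hm'0 : 0 < m' := by
        rcases Nat.eq_zero_or_pos m' with h | h
        · subst h; omega
        · exact h
      have hlt : m' < m := by
        have := hp.two_le
        nlinarith
      obtain ⟨s, q, hsq, hq, hs⟩ := ih m' hlt hm'0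
      by_cases hpT : m.minFac ≤ T
      · refine ⟨m.minFac * s, q, ?_, hq, ?_⟩
        · rw [mul_assoc, ← hsq]; exact hm'
        · intro p hp' hd
          rcases (Nat.Prime.dvd_mul hp').1 hd with h | h
          · rw [(Nat.prime_dvd_prime_iff_eq hp' hp).1 h]; exact hpT
          · exact hs p hp' h
      · refine ⟨s, m.minFac * q, ?_, ?_, hs⟩
        · rw [mul_left_comm, ← hsq]; exact hm'
        · intro p hp' hd
          rcases (Nat.Prime.dvd_mul hp').1 hd with h | h
          · rw [(Nat.prime_dvd_prime_iff_eq hp' hp).1 h]; omega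
          · exact hq p hp' h

private theorem uf_eq (l : List ℕ) : uf l = (l.map (fun n : ℕ => (1 : ℚ) / (n : ℚ))).sum := by
  have h : ∀ l : List ℕ, List.flatMap (fun a : ℕ => [(a : ℚ)]) l = l.map (fun a : ℕ => (a : ℚ)) := by
    intro l
    induction l with
    | nil => rfl
    | cons a l ih => simp [List.flatMap_cons, ih]
  simp [uf, h]
  rfl

private theorem oddPrimorial_pos (T : ℕ) : 0 < oddPrimorial T := by
  unfold oddPrimorial
  apply Finset.prod_pos
  intro p hp
  simp only [oddPrimes, Finset.mem_filter] at hp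
  exact hp.2.1.pos

/-- The smooth part divides `2^H * P^2`. -/
private theorem smooth_dvd {T Amax H : ℕ} (S : Split T Amax) {m s q : ℕ} (hm0 : 0 < m)
    (hm : m ≤ 2 ^ H) (hG : Good S m) (hsq : m = s * q)
    (hs : ∀ p : ℕ, p.Prime → p ∣ s → p ≤ T) :
    s ∣ 2 ^ H * oddPrimorial T ^ 2 := by
  have hs0 : s ≠ 0 := by rintro rfl; simp at hsq; omega
  have hq0 : q ≠ 0 := by rintro rfl; simp at hsq; omega
  have hP0 := oddPrimorial_pos T
  have hne : 2 ^ H * oddPrimorial T ^ 2 ≠ 0 := by positivity
  rw [← Nat.factorization_prime_le_iff_dvd hs0 hne]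
  intro p hp
  by_cases hd : p ∣ s
  · have hsm : s ∣ m := ⟨q, hsq⟩
    have hle := (Nat.factorization_le_iff_dvd hs0 hm0.ne').2 hsm p
    have hpT := hs p hp hd
    by_cases h2 : p = 2
    · subst h2
      have h1 : m.factorization 2 ≤ H := by
        have hdvd : 2 ^ m.factorization 2 ∣ m := Nat.ordProj_dvd m 2
        have := Nat.le_of_dvd hm0 hdvd
        exact (Nat.pow_le_pow_iff_right (by norm_num : 1 < 2)).1 (this.trans hm)
      have h2 : (2 ^ H * oddPrimorial T ^ 2).factorization 2 ≥ H := by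
        apply (Nat.Prime.pow_dvd_iff_le_factorization Nat.prime_two hne).1
        exact Dvd.intro _ rfl
      omega
    · have hmem : p ∈ oddPrimes T := by
        simp only [oddPrimes, Finset.mem_filter, Finset.mem_range]
        exact ⟨by omega, hp, h2⟩
      have hnot := hG.1 p hmem
      have h1 : m.factorization p ≤ 2 := by
        by_contra hcon
        apply hnot
        exact (Nat.Prime.pow_dvd_iff_le_factorization hp hm0.ne').2 (by omega)
      have hpP : p ∣ oddPrimorial T := Finset.dvd_prod_of_mem _ hmem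
      have h2' : (2 ^ H * oddPrimorial T ^ 2).factorization p ≥ 2 := by
        apply (Nat.Prime.pow_dvd_iff_le_factorization hp hne).1
        exact Dvd.dvd.mul_left (pow_dvd_pow_of_dvd hpP 2) _
      omega
  · have : s.factorization p = 0 := Nat.factorization_eq_zero_of_not_dvd hd
    omega

/-- `m = s q`, `s` `T`-smooth, `q` rough. `s ∣ 2^H P^2`, so `E / s` is a multiple of `P * 2^K₂`.
With `d_j ∣ P`, `q ∣ ∑ d_j` from `finishing_tuple`, `t = ∑ d_j / q`:
`m / E = q / (E / s) = ∑_j 1 / (t * (E / s) / d_j)`. Denominators are multiples of `2^K₂` since `d_j` are odd. -/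
theorem finish {T Amax H K₂ : ℕ} (S : Split T Amax) (hT : 2 ^ 18 < T) (hA : aOf H ≤ Amax)
    {m E : ℕ} (hm0 : 0 < m) (hm : m ≤ 2 ^ H) (hG : Good S m)
    (hE : oddPrimorial T ^ 3 * 2 ^ (H + K₂) ∣ E) (hE0 : 0 < E) :
    Rep K₂ 18 ((m : ℚ) / (E : ℚ)) := by
  obtain ⟨s, q, hsq, hq, hs⟩ := exists_smooth_rough T m hm0
  have hs0 : 0 < s := by
    rcases Nat.eq_zero_or_pos s with h | h
    · subst h; simp at hsq; omega
    · exact h
  have hq0 : 0 < q := by
    rcases Nat.eq_zero_or_pos q with h | h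
    · subst h; simp at hsq; omega
    · exact h
  have hqm : q ∣ m := ⟨s, by rw [hsq, mul_comm]⟩
  have hqH : q ≤ 2 ^ H := (Nat.le_of_dvd hm0 hqm).trans hm
  have hgood : ∀ q' : ℕ, q' ∣ q → 1 < q' → GoodMod S q' := by
    intro q' hq' h1
    refine hG.2 q' (hq'.trans hqm) h1 ?_
    intro p hp hd
    exact hq p hp (hd.trans hq')
  obtain ⟨f, hf, hsum⟩ := finishing_tuple S hT hA hq0 hqH hq hgood
  obtain ⟨c, hc⟩ := smooth_dvd S hm0 hm hG hsq hs
  obtain ⟨e, he⟩ := hE
  have hP0' : 0 < oddPrimorial T := oddPrimorial_pos T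
  generalize oddPrimorial T = P at *
  have hP0 : 0 < P := hP0'
  -- the cofactors
  choose g hg using hf
  have hfpos : ∀ i, 0 < f i := fun i => by
    rcases Nat.eq_zero_or_pos (f i) with h | h
    · have := hg i; rw [h, zero_mul] at this; omega
    · exact h
  have hgpos : ∀ i, 0 < g i := fun i => by
    rcases Nat.eq_zero_or_pos (g i) with h | h
    · have := hg i; rw [h, mul_zero] at this; omega
    · exact h
  have he0 : 0 < e := by
    rcases Nat.eq_zero_or_pos e with h | h
    · subst h; simp at he; omega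
    · exact h
  have hc0 : 0 < c := by
    rcases Nat.eq_zero_or_pos c with h | h
    · subst h
      have : 2 ^ H * P ^ 2 > 0 := by positivity
      simp at hc; omega
    · exact h
  have hsumpos : 0 < ∑ i, f i :=
    Finset.sum_pos (fun i _ => hfpos i) ⟨0, Finset.mem_univ _⟩
  obtain ⟨t, ht⟩ := hsum
  have ht0 : 0 < t := by
    rcases Nat.eq_zero_or_pos t with h | h
    · subst h; rw [mul_zero] at ht; omega
    · exact h
  -- the common part `w = 2^K₂ * c * e`
  have hEeq : E = s * (P * (2 ^ K₂ * (c * e))) := by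
    rw [he, pow_add]
    calc P ^ 3 * (2 ^ H * 2 ^ K₂) * e = (2 ^ H * P ^ 2) * (P * (2 ^ K₂ * e)) := by ring
      _ = (s * c) * (P * (2 ^ K₂ * e)) := by rw [hc]
      _ = _ := by ring
  obtain ⟨w, hw⟩ : ∃ w, w = 2 ^ K₂ * (c * e) := ⟨_, rfl⟩
  rw [← hw] at hEeq
  have hw0 : 0 < w := by rw [hw]; positivity
  refine ⟨List.ofFn (fun i : Fin 18 => t * (g i * w)), ?_, ?_, ?_⟩
  · simp
  · intro n hn
    rw [List.mem_ofFn] at hn
    obtain ⟨i, rfl⟩ := hn
    refine ⟨?_, ?_⟩
    · exact Nat.mul_pos ht0 (Nat.mul_pos (hgpos i) hw0)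
    · exact ⟨t * (g i * (c * e)), by rw [hw]; ring⟩
  · rw [uf_eq, List.map_ofFn, List.sum_ofFn]
    have hq_Q : (0 : ℚ) < q := by exact_mod_cast hq0
    have ht_Q : (0 : ℚ) < t := by exact_mod_cast ht0
    have hw_Q : (0 : ℚ) < w := by exact_mod_cast hw0
    have hP_Q : (0 : ℚ) < P := by exact_mod_cast hP0
    have hs_Q : (0 : ℚ) < s := by exact_mod_cast hs0
    have hterm : ∀ i : Fin 18, (((fun n : ℕ => (1 : ℚ) / (n : ℚ)) ∘
        fun i : Fin 18 => t * (g i * w)) i) = (f i : ℚ) / (t * P * w) := by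
      intro i
      have hg_Q : (0 : ℚ) < g i := by exact_mod_cast hgpos i
      have hf_Q : (0 : ℚ) < f i := by exact_mod_cast hfpos i
      have hPi : (P : ℚ) = f i * g i := by exact_mod_cast hg i
      simp only [Function.comp]
      push_cast
      rw [hPi]
      field_simp
    rw [Finset.sum_congr rfl (fun i _ => hterm i), ← Finset.sum_div]
    have hsumQ : (∑ i, (f i : ℚ)) = q * t := by exact_mod_cast ht
    rw [hsumQ]
    have hmQ : (m : ℚ) = s * q := by exact_mod_cast hsq
    have hEQ : (E : ℚ) = s * (P * w) := by exact_mod_cast hEeq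
    rw [hmQ, hEQ]
    field_simp

end Crest.Agent.S0025Lib
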