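import Crest.Agent.S0025Lib.Defs

/-! # S0025 WP: bilinear bound and Fourier tuple lemma -/

set_option autoImplicit false

namespace Crest.Agent.S0025Lib

open Finset

private lemma pow_eq_pow_iff_modEq_of_prim {q : ℕ} {η : ℂ} (hq : 0 < q)
    (hη : IsPrimitiveRoot η q) (a b : ℕ) : η ^ a = η ^ b ↔ a ≡ b [MOD q] := by
  have hfin : IsOfFinOrder η := isOfFinOrder_iff_pow_eq_one.mpr ⟨q, hq, hη.pow_eq_one⟩
  rw [hη.eq_orderOf]
  exact hfin.pow_eq_pow_iff_modEq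

/-- geometric sum of a root of unity -/
private lemma geom_root {q : ℕ} {w : ℂ} (hw : w ^ q = 1) (hne : w ≠ 1) :
    ∑ u ∈ Finset.range q, w ^ u = 0 := by
  rw [geom_sum_eq hne, hw]
  simp

/-- orthogonality of characters -/
private lemma orth {q : ℕ} {η : ℂ} (hq : 0 < q) (hη : IsPrimitiveRoot η q) (y y' : ℕ) :
    ∑ u ∈ Finset.range q, η ^ (u * y) * (starRingEnd ℂ) (η ^ (u * y')) =
      if y ≡ y' [MOD q] then (q : ℂ) else 0 := by
  have hnorm : ‖η‖ = 1 := hη.norm'_eq_one hq.ne'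
  have hne : η ≠ 0 := hη.ne_zero hq.ne'
  have hconj : (starRingEnd ℂ) η = η⁻¹ := (Complex.inv_eq_conj hnorm).symm
  have hterm : ∀ u : ℕ, η ^ (u * y) * (starRingEnd ℂ) (η ^ (u * y')) =
      (η ^ y * (η ^ y')⁻¹) ^ u := by
    intro u
    rw [map_pow, hconj, mul_pow, ← pow_mul, mul_comm y u, inv_pow, inv_pow, ← pow_mul, mul_comm y' u]
  simp_rw [hterm]
  by_cases h : y ≡ y' [MOD q]
  · rw [if_pos h]
    have : η ^ y = η ^ y' := (pow_eq_pow_iff_modEq_of_prim hq hη y y').mpr h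
    have hne' : η ^ y' ≠ 0 := pow_ne_zero _ hne
    rw [this, mul_inv_cancel₀ hne']
    simp
  · rw [if_neg h]
    apply geom_root
    · rw [mul_pow, inv_pow, ← pow_mul, ← pow_mul, mul_comm y q, mul_comm y' q, pow_mul, pow_mul,
        hη.pow_eq_one]
      simp
    · intro h1
      apply h
      apply (pow_eq_pow_iff_modEq_of_prim hq hη y y').mp
      have hne' : η ^ y' ≠ 0 := pow_ne_zero _ hne
      field_simp at h1
      exact h1

/-- `coll` as a double sum of indicators -/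
private lemma coll_cast (Y : Finset ℕ) (q : ℕ) :
    ((coll Y q : ℕ) : ℂ) = ∑ y ∈ Y, ∑ y' ∈ Y, if y ≡ y' [MOD q] then (1 : ℂ) else 0 := by
  unfold coll
  rw [Finset.card_filter, Nat.cast_sum, Finset.sum_product]
  refine Finset.sum_congr rfl fun y _ => Finset.sum_congr rfl fun y' _ => ?_
  split_ifs <;> simp

/-- Parseval-type identity -/
private lemma sum_norm_sq {q : ℕ} {η : ℂ} (hq : 0 < q) (hη : IsPrimitiveRoot η q) (Y : Finset ℕ) :
    ∑ u ∈ Finset.range q, ‖∑ y ∈ Y, η ^ (u * y)‖ ^ 2 = (q : ℝ) * (coll Y q : ℝ) := by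
  have key : ((∑ u ∈ Finset.range q, ‖∑ y ∈ Y, η ^ (u * y)‖ ^ 2 : ℝ) : ℂ)
      = (((q : ℝ) * (coll Y q : ℝ) : ℝ) : ℂ) := by
    push_cast
    have h1 : ∀ u : ℕ, ((‖∑ y ∈ Y, η ^ (u * y)‖ : ℂ)) ^ 2 =
        ∑ y ∈ Y, ∑ y' ∈ Y, η ^ (u * y) * (starRingEnd ℂ) (η ^ (u * y')) := by
      intro u
      rw [← Complex.mul_conj', map_sum, Finset.sum_mul_sum]
    simp_rw [h1]
    rw [Finset.sum_comm]
    have h2 : ∀ y ∈ Y, ∑ u ∈ Finset.range q, ∑ y' ∈ Y,
        η ^ (u * y) * (starRingEnd ℂ) (η ^ (u * y')) =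
        ∑ y' ∈ Y, if y ≡ y' [MOD q] then (q : ℂ) else 0 := by
      intro y _
      rw [Finset.sum_comm]
      exact Finset.sum_congr rfl fun y' _ => orth hq hη y y'
    rw [Finset.sum_congr rfl h2, coll_cast, Finset.mul_sum]
    refine Finset.sum_congr rfl fun y _ => ?_
    rw [Finset.mul_sum]
    refine Finset.sum_congr rfl fun y' _ => ?_
    split_ifs <;> simp
  exact_mod_cast key

/-- number of collisions via fibres of the residue map -/
private lemma sum_sq_fiber {q : ℕ} (hq : 0 < q) (X : Finset ℕ) :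
    ∑ u ∈ Finset.range q, ((X.filter fun x => x % q = u).card : ℝ) ^ 2 = (coll X q : ℝ) := by
  unfold coll
  have hmaps : ∀ z ∈ (X ×ˢ X).filter (fun z => z.1 ≡ z.2 [MOD q]),
      z.1 % q ∈ Finset.range q := by
    intro z _
    exact Finset.mem_range.mpr (Nat.mod_lt _ hq)
  rw [Finset.card_eq_sum_card_fiberwise hmaps, Nat.cast_sum]
  refine Finset.sum_congr rfl fun u _ => ?_
  have : ((X ×ˢ X).filter (fun z => z.1 ≡ z.2 [MOD q])).filter (fun z => z.1 % q = u) =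
      (X.filter fun x => x % q = u) ×ˢ (X.filter fun x => x % q = u) := by
    ext ⟨a, b⟩
    simp only [Finset.mem_filter, Finset.mem_product]
    constructor
    · rintro ⟨⟨⟨ha, hb⟩, hab⟩, hu⟩
      have hab' : a % q = b % q := hab
      refine ⟨⟨ha, hu⟩, hb, ?_⟩
      omega
    · rintro ⟨⟨ha, hu⟩, hb, hu'⟩
      refine ⟨⟨⟨ha, hb⟩, ?_⟩, hu⟩
      show a % q = b % q
      omega
  rw [this, Finset.card_product]
  push_cast
  ring

/-- **L1** bilinear bound: Cauchy–Schwarz in `x`, grouped by residues modulo `q`, and orthogonality. -/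
theorem bilinear_bound {q : ℕ} {η : ℂ} (hq : 0 < q) (hη : IsPrimitiveRoot η q) (X Y : Finset ℕ) :
    ‖∑ x ∈ X, ∑ y ∈ Y, η ^ (x * y)‖ ^ 2 ≤ (q : ℝ) * (coll X q : ℝ) * (coll Y q : ℝ) := by
  set a : ℕ → ℝ := fun u => ((X.filter fun x => x % q = u).card : ℝ) with ha
  set F : ℕ → ℂ := fun u => ∑ y ∈ Y, η ^ (u * y) with hF
  have hsum : ∑ x ∈ X, ∑ y ∈ Y, η ^ (x * y) = ∑ u ∈ Finset.range q, (a u : ℂ) * F u := by
    have hmaps : ∀ x ∈ X, x % q ∈ Finset.range q := fun x _ =>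
      Finset.mem_range.mpr (Nat.mod_lt _ hq)
    rw [← Finset.sum_fiberwise_of_maps_to hmaps]
    refine Finset.sum_congr rfl fun u _ => ?_
    have : ∀ x ∈ X.filter (fun x => x % q = u), ∑ y ∈ Y, η ^ (x * y) = F u := by
      intro x hx
      have hxu : x % q = u := (Finset.mem_filter.mp hx).2
      refine Finset.sum_congr rfl fun y _ => ?_
      apply (pow_eq_pow_iff_modEq_of_prim hq hη _ _).mpr
      apply Nat.ModEq.mul_right
      rw [← hxu]
      exact (Nat.mod_modEq x q).symm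
    rw [Finset.sum_congr rfl this, Finset.sum_const, ha]
    simp
  have hle : ‖∑ u ∈ Finset.range q, (a u : ℂ) * F u‖ ≤ ∑ u ∈ Finset.range q, a u * ‖F u‖ := by
    refine (norm_sum_le _ _).trans (le_of_eq ?_)
    refine Finset.sum_congr rfl fun u _ => ?_
    rw [norm_mul, Complex.norm_real, Real.norm_of_nonneg]
    simp [ha]
  have hcs := Finset.sum_mul_sq_le_sq_mul_sq (Finset.range q) a (fun u => ‖F u‖)
  rw [hsum]
  calc ‖∑ u ∈ Finset.range q, (a u : ℂ) * F u‖ ^ 2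
      ≤ (∑ u ∈ Finset.range q, a u * ‖F u‖) ^ 2 := by
        exact pow_le_pow_left₀ (norm_nonneg _) hle 2
    _ ≤ (∑ u ∈ Finset.range q, a u ^ 2) * ∑ u ∈ Finset.range q, ‖F u‖ ^ 2 := hcs
    _ = (q : ℝ) * (coll X q : ℝ) * (coll Y q : ℝ) := by
        rw [sum_sq_fiber hq X, sum_norm_sq hq hη Y]
        ring

/-- **L2** Fourier: `q * #{f : q ∣ ∑ f} = ∑_{c<q} (∑_{d ∈ S} ζ^(c d))^k`. -/
theorem exists_tuple_of_fourier {q k : ℕ} {ζ : ℂ} (hq : 0 < q) (hζ : IsPrimitiveRoot ζ q)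
    (S : Finset ℕ)
    (h : ∑ c ∈ (Finset.range q).erase 0, ‖∑ d ∈ S, ζ ^ (c * d)‖ ^ k < (S.card : ℝ) ^ k) :
    ∃ f : Fin k → ℕ, (∀ i, f i ∈ S) ∧ q ∣ ∑ i, f i := by
  by_contra hcon
  push Not at hcon
  have hnot : ∀ f ∈ Fintype.piFinset (fun _ : Fin k => S), ¬ q ∣ ∑ i, f i := by
    intro f hf
    exact hcon f (fun i => Fintype.mem_piFinset.mp hf i)
  -- the total Fourier sum vanishes
  have htotal : ∑ c ∈ Finset.range q, (∑ d ∈ S, ζ ^ (c * d)) ^ k = 0 := by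
    have h1 : ∀ c : ℕ, (∑ d ∈ S, ζ ^ (c * d)) ^ k =
        ∑ f ∈ Fintype.piFinset (fun _ : Fin k => S), (ζ ^ (∑ i, f i)) ^ c := by
      intro c
      have : (∑ d ∈ S, ζ ^ (c * d)) ^ k =
          ∏ _i : Fin k, ∑ d ∈ S, ζ ^ (c * d) := by
        simp
      rw [this, Finset.prod_univ_sum]
      refine Finset.sum_congr rfl fun f _ => ?_
      rw [Finset.prod_pow_eq_pow_sum, ← Finset.mul_sum, ← pow_mul, mul_comm]
    simp_rw [h1]
    rw [Finset.sum_comm]
    refine Finset.sum_eq_zero fun f hf => ?_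
    apply geom_root
    · rw [← pow_mul, mul_comm, pow_mul, hζ.pow_eq_one, one_pow]
    · intro h2
      exact hnot f hf ((hζ.pow_eq_one_iff_dvd _).mp h2)
  have hz : (0 : ℕ) ∈ Finset.range q := Finset.mem_range.mpr hq
  rw [← Finset.add_sum_erase _ _ hz] at htotal
  have h0 : (∑ d ∈ S, ζ ^ (0 * d)) ^ k = ((S.card : ℝ) ^ k : ℝ) := by
    simp
  rw [h0] at htotal
  have hnorm : (S.card : ℝ) ^ k ≤
      ∑ c ∈ (Finset.range q).erase 0, ‖∑ d ∈ S, ζ ^ (c * d)‖ ^ k := by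
    have h3 : (((S.card : ℝ) ^ k : ℝ) : ℂ) =
        - ∑ c ∈ (Finset.range q).erase 0, (∑ d ∈ S, ζ ^ (c * d)) ^ k :=
      eq_neg_of_add_eq_zero_left htotal
    have h4 := congrArg norm h3
    rw [Complex.norm_real, Real.norm_of_nonneg (by positivity), norm_neg] at h4
    rw [h4]
    refine (norm_sum_le _ _).trans (le_of_eq ?_)
    refine Finset.sum_congr rfl fun c _ => ?_
    rw [norm_pow]
  exact absurd h (not_lt.mpr hnorm)

end Crest.Agent.S0025Lib
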