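import Crest.Agent.S0025Lib.Round

/-! # S0025 WP: Chebyshev bound, existence of `Split`, the choice of parameters -/

set_option autoImplicit false

namespace Crest.Agent.S0025Lib

open Finset

/-- `Split` exists when there are enough primes. -/
theorem exists_split {T Amax : ℕ} (h : 2 * Amax ≤ (oddPrimes T).card) :
    Nonempty (Split T Amax) := by
  classical
  obtain ⟨X, hXsub, hXcard⟩ :=
    Finset.exists_subset_card_eq (s := oddPrimes T) (n := Amax) (by omega)
  obtain ⟨Y, hYsub, hYcard⟩ :=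
    Finset.exists_subset_card_eq (s := oddPrimes T \ X) (n := Amax) (by
      rw [Finset.card_sdiff_of_subset hXsub, hXcard]; omega)
  have hA : ∀ a, ∃ t : Finset ℕ, a ≤ Amax → t ⊆ X ∧ t.card = a := by
    intro a
    by_cases ha : a ≤ Amax
    · obtain ⟨t, ht, htc⟩ := Finset.exists_subset_card_eq (s := X) (n := a) (by omega)
      exact ⟨t, fun _ => ⟨ht, htc⟩⟩
    · exact ⟨∅, fun h' => absurd h' ha⟩
  have hB : ∀ a, ∃ t : Finset ℕ, a ≤ Amax → t ⊆ Y ∧ t.card = a := by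
    intro a
    by_cases ha : a ≤ Amax
    · obtain ⟨t, ht, htc⟩ := Finset.exists_subset_card_eq (s := Y) (n := a) (by omega)
      exact ⟨t, fun _ => ⟨ht, htc⟩⟩
    · exact ⟨∅, fun h' => absurd h' ha⟩
  choose A hA using hA
  choose B hB using hB
  have hXY : Disjoint X Y := by
    rw [Finset.disjoint_left]
    intro x hx hy
    have := hYsub hy
    rw [Finset.mem_sdiff] at this
    exact this.2 hx
  refine ⟨⟨A, B, ?_, ?_, ?_, ?_, ?_⟩⟩
  · intro a ha; exact (hA a ha).1.trans hXsub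
  · intro a ha; exact (hB a ha).1.trans (hYsub.trans Finset.sdiff_subset)
  · intro a ha; exact Finset.disjoint_of_subset_left (hA a ha).1
      (Finset.disjoint_of_subset_right (hB a ha).1 hXY)
  · intro a ha; exact (hA a ha).2
  · intro a ha; exact (hB a ha).2

/-- Relation between `oddPrimes` and `π`. -/
private theorem card_oddPrimes_add_one {T : ℕ} (hT : 2 ≤ T) :
    (oddPrimes T).card + 1 = Nat.primeCounting T := by
  classical
  have h1 : Nat.primeCounting T = ((Finset.range (T + 1)).filter Nat.Prime).card := by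
    rw [Nat.primeCounting, Nat.primeCounting', Nat.count_eq_card_filter_range]
  have h2 : oddPrimes T = ((Finset.range (T + 1)).filter Nat.Prime).erase 2 := by
    ext p
    simp only [oddPrimes, Finset.mem_filter, Finset.mem_erase, Finset.mem_range]
    tauto
  have h3 : 2 ∈ (Finset.range (T + 1)).filter Nat.Prime := by
    simp only [Finset.mem_filter, Finset.mem_range]
    exact ⟨by omega, Nat.prime_two⟩
  rw [h1, h2, Finset.card_erase_add_one h3]

/-- Chebyshev (from `Chebyshev.psi_ge`, `Chebyshev.psi_le_primeCounting_mul_log`). -/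
theorem card_oddPrimes_lower (L l : ℕ) (hL : 2 ^ 100 ≤ L) (hl : l = Nat.log 2 L + 1) :
    2 * aOf (20 * L) ≤ (oddPrimes (100 * L * l)).card := by
  have hL0 : 0 < L := lt_of_lt_of_le (by positivity) hL
  have hl101 : 101 ≤ l := by
    rw [hl]
    have : 100 ≤ Nat.log 2 L := by
      rw [Nat.le_log_iff_pow_le (by norm_num) (by omega)]
      exact hL
    omega
  have hLl : L < 2 ^ l := by rw [hl]; exact Nat.lt_pow_succ_log_self (by norm_num) L
  set T := 100 * L * l with hTdef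
  have hTlarge : 2 ≤ T := by
    have : 1 ≤ L * l := Nat.mul_pos hL0 (by omega)
    rw [hTdef, mul_assoc]; omega
  have hT3 : T ≤ 2 ^ (3 * l) := by
    have h100 : 100 ≤ 2 ^ l := by
      calc 100 ≤ 2 ^ 7 := by norm_num
        _ ≤ 2 ^ l := Nat.pow_le_pow_right (by norm_num) (by omega)
    have hll : l ≤ 2 ^ l := (Nat.lt_two_pow_self).le
    calc T = 100 * L * l := rfl
      _ ≤ 2 ^ l * 2 ^ l * 2 ^ l := by gcongr
      _ = 2 ^ (3 * l) := by ring
  have hlog2 : 0 < Real.log 2 := Real.log_pos (by norm_num)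
  have hTpos : (0 : ℝ) < T := by exact_mod_cast (by omega : 0 < T)
  have hT1 : (1 : ℝ) < T := by exact_mod_cast (by omega : 1 < T)
  have hlogT : Real.log T ≤ 3 * l * Real.log 2 := by
    have : Real.log (T : ℝ) ≤ Real.log ((2 : ℝ) ^ (3 * l)) :=
      Real.log_le_log hTpos (by exact_mod_cast hT3)
    rw [Real.log_pow] at this
    push_cast at this
    linarith
  have hlogT1 : Real.log ((T : ℝ) + 1) ≤ (3 * l + 1) * Real.log 2 := by
    have h2T : (T : ℝ) + 1 ≤ 2 * T := by linarith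
    have : Real.log ((T : ℝ) + 1) ≤ Real.log (2 * (T : ℝ)) :=
      Real.log_le_log (by linarith) h2T
    rw [Real.log_mul (by norm_num) (by linarith)] at this
    linarith
  have hlogTpos : 0 < Real.log (T : ℝ) := Real.log_pos hT1
  have hpi := Chebyshev.pi_ge T
  have hmain : ((80 * L + 11 : ℕ) : ℝ) / 3 ≤ ((Nat.primeCounting T : ℕ) : ℝ) := by
    refine le_trans ?_ hpi
    rw [le_div_iff₀ hlogTpos]
    have hLR : (1 : ℝ) ≤ L := by exact_mod_cast hL0
    have hlR : (101 : ℝ) ≤ l := by exact_mod_cast hl101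
    have hTval : (T : ℝ) = 100 * L * l := by rw [hTdef]; push_cast; ring
    have step1 : ((80 * L + 11 : ℕ) : ℝ) / 3 * Real.log T
        ≤ ((80 * L + 11 : ℕ) : ℝ) / 3 * (3 * l * Real.log 2) := by
      apply mul_le_mul_of_nonneg_left hlogT
      positivity
    have step2 : ((80 * L + 11 : ℕ) : ℝ) / 3 * (3 * l * Real.log 2)
        + (3 * l + 1) * Real.log 2 ≤ (T : ℝ) * Real.log 2 := by
      rw [hTval]
      push_cast
      have : (80 * (L : ℝ) + 11) / 3 * (3 * l * Real.log 2) + (3 * l + 1) * Real.log 2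
          = ((80 * (L : ℝ) + 11) * l + 3 * l + 1) * Real.log 2 := by ring
      rw [this]
      apply mul_le_mul_of_nonneg_right _ hlog2.le
      nlinarith
    linarith
  have hcard := card_oddPrimes_add_one hTlarge
  have hmain' : 80 * L + 11 ≤ 3 * Nat.primeCounting T := by
    have h3 : ((80 * L + 11 : ℕ) : ℝ) ≤ 3 * ((Nat.primeCounting T : ℕ) : ℝ) := by linarith
    exact_mod_cast h3
  have haOf : 3 * aOf (20 * L) ≤ 2 * (20 * L) + 4 := by
    unfold aOf
    have := Nat.div_mul_le_self (2 * (20 * L) + 4) 3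
    omega
  omega

/-- the value of `K₂` -/
def K2Of (l : ℕ) : ℕ := 19 * (28 + 1200 * l) + 18

/-- `P ≤ 4^T`. -/
theorem oddPrimorial_le (T : ℕ) : oddPrimorial T ≤ 4 ^ T := by
  classical
  refine le_trans ?_ (primorial_le_four_pow T)
  unfold oddPrimorial primorial
  apply Finset.prod_le_prod_of_subset_of_one_le'
  · intro p hp
    simp only [oddPrimes, Finset.mem_filter, Finset.mem_range] at hp ⊢
    exact ⟨hp.1, hp.2.1⟩
  · intro p hp _
    simp only [Finset.mem_filter, Finset.mem_range] at hp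
    exact hp.2.one_lt.le

/-- The parameters: `l = log₂ L + 1`, `T = 100 L l`, `H = 20 L`, `τ = 2 L`, `K = 2^(17 L)`, `K₂ = K2Of l`,
`M = H + K₂ + 6 T`, `Amax = aOf H`. -/
theorem exists_params (L l : ℕ) (hL : 2 ^ 100 ≤ L) (hl : l = Nat.log 2 L + 1) :
    ∃ p : Params, p.T = 100 * L * l ∧ p.H = 20 * L ∧ p.τ = 2 * L ∧ p.K₂ = K2Of l ∧
      p.M = 20 * L + K2Of l + 6 * (100 * L * l) := by
  have hL0 : 0 < L := lt_of_lt_of_le (by positivity) hL
  have hL100 : 100 ≤ L := by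
    refine le_trans ?_ hL
    norm_num
  have hl101 : 101 ≤ l := by
    rw [hl]
    have : 100 ≤ Nat.log 2 L := by
      rw [Nat.le_log_iff_pow_le (by norm_num) (by omega)]
      exact hL
    omega
  have hLl : L < 2 ^ l := by rw [hl]; exact Nat.lt_pow_succ_log_self (by norm_num) L
  have hlL : 2 ^ (l - 1) ≤ L := by
    rw [hl, Nat.add_sub_cancel]
    exact Nat.pow_log_le_self 2 (by omega)
  have hlleL : l ≤ L := by
    have : l - 1 < 2 ^ (l - 1) := Nat.lt_two_pow_self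
    omega
  obtain ⟨S⟩ := exists_split (card_oddPrimes_lower L l hL hl)
  have hT : 2 ^ 100 ≤ 100 * L * l := by
    have : L ≤ 100 * L * l := by
      rw [mul_assoc]
      have : 1 ≤ L * l := Nat.mul_pos hL0 (by omega)
      nlinarith
    exact hL.trans this
  have hτ : 2 ≤ 2 * L := by omega
  have hUK : (2 * 2 ^ (2 * L) + 1) * (2 ^ (17 * L) + 1) ≤ 2 ^ (20 * L) := by
    have h1 : 2 * 2 ^ (2 * L) + 1 ≤ 2 ^ (2 * L + 2) := by
      have : 1 ≤ 2 ^ (2 * L) := Nat.one_le_two_pow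
      rw [pow_add]; omega
    have h2 : 2 ^ (17 * L) + 1 ≤ 2 ^ (17 * L + 1) := by
      have : 1 ≤ 2 ^ (17 * L) := Nat.one_le_two_pow
      rw [pow_succ]; omega
    calc (2 * 2 ^ (2 * L) + 1) * (2 ^ (17 * L) + 1)
        ≤ 2 ^ (2 * L + 2) * 2 ^ (17 * L + 1) := Nat.mul_le_mul h1 h2
      _ = 2 ^ (2 * L + 2 + (17 * L + 1)) := (pow_add _ _ _).symm
      _ ≤ 2 ^ (20 * L) := Nat.pow_le_pow_right (by norm_num) (by omega)
  have hK : 8 * (((100 * L * l : ℕ) : ℝ) + 64 * (7 / 4 : ℝ) ^ (20 * L)) ≤ ((2 ^ (17 * L) : ℕ) : ℝ) := by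
    -- first part: `16 T ≤ 2^(17 L)`
    have hA : 16 * (100 * L * l) ≤ 2 ^ (17 * L) := by
      have h1 : L ≤ 2 ^ L := (Nat.lt_two_pow_self).le
      have h2 : l ≤ 2 ^ L := hlleL.trans h1
      calc 16 * (100 * L * l) ≤ 2 ^ 11 * (2 ^ L * 2 ^ L) := by
            have : L * l ≤ 2 ^ L * 2 ^ L := Nat.mul_le_mul h1 h2
            calc 16 * (100 * L * l) = 1600 * (L * l) := by ring
              _ ≤ 2048 * (2 ^ L * 2 ^ L) := by
                  apply Nat.mul_le_mul (by norm_num) this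
              _ = 2 ^ 11 * (2 ^ L * 2 ^ L) := by norm_num
        _ = 2 ^ (11 + (L + L)) := by rw [pow_add, pow_add]
        _ ≤ 2 ^ (17 * L) := Nat.pow_le_pow_right (by norm_num) (by omega)
    have hAR : (16 : ℝ) * ((100 * L * l : ℕ) : ℝ) ≤ ((2 ^ (17 * L) : ℕ) : ℝ) := by
      exact_mod_cast hA
    -- second part: `1024 (7/4)^(20 L) ≤ 2^(17 L)`
    have h32 : (1024 : ℝ) ≤ (3 / 2 : ℝ) ^ L := by
      calc (1024 : ℝ) ≤ (3 / 2 : ℝ) ^ 18 := by norm_num
        _ ≤ (3 / 2 : ℝ) ^ L := pow_le_pow_right₀ (by norm_num) (by omega)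
    have hbase : ((7 / 4 : ℝ) ^ 20) * (3 / 2 : ℝ) ≤ (2 : ℝ) ^ 17 := by norm_num
    have hbaseL : ((7 / 4 : ℝ) ^ 20 * (3 / 2 : ℝ)) ^ L ≤ ((2 : ℝ) ^ 17) ^ L :=
      pow_le_pow_left₀ (by positivity) hbase L
    have hB : (1024 : ℝ) * (7 / 4 : ℝ) ^ (20 * L) ≤ ((2 ^ (17 * L) : ℕ) : ℝ) := by
      have e1 : ((7 / 4 : ℝ) ^ 20 * (3 / 2 : ℝ)) ^ L = (7 / 4 : ℝ) ^ (20 * L) * (3 / 2 : ℝ) ^ L := by
        rw [mul_pow, pow_mul]
      have e2 : ((2 : ℝ) ^ 17) ^ L = ((2 ^ (17 * L) : ℕ) : ℝ) := by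
        push_cast; rw [pow_mul]
      rw [e1, e2] at hbaseL
      have hpos : (0 : ℝ) ≤ (7 / 4 : ℝ) ^ (20 * L) := by positivity
      calc (1024 : ℝ) * (7 / 4 : ℝ) ^ (20 * L) ≤ (3 / 2 : ℝ) ^ L * (7 / 4 : ℝ) ^ (20 * L) :=
            mul_le_mul_of_nonneg_right h32 hpos
        _ = (7 / 4 : ℝ) ^ (20 * L) * (3 / 2 : ℝ) ^ L := by ring
        _ ≤ _ := hbaseL
    nlinarith
  have hM2 : oddPrimorial (100 * L * l) ^ 3 * 2 ^ K2Of l
      ≤ 2 ^ (20 * L + K2Of l + 6 * (100 * L * l) + 1) := by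
    have h1 : oddPrimorial (100 * L * l) ^ 3 ≤ 2 ^ (6 * (100 * L * l)) := by
      calc oddPrimorial (100 * L * l) ^ 3 ≤ (4 ^ (100 * L * l)) ^ 3 :=
            Nat.pow_le_pow_left (oddPrimorial_le _) 3
        _ = 2 ^ (6 * (100 * L * l)) := by
            rw [show (4 : ℕ) = 2 ^ 2 by norm_num, ← pow_mul, ← pow_mul]; congr 1; ring
    calc oddPrimorial (100 * L * l) ^ 3 * 2 ^ K2Of l
        ≤ 2 ^ (6 * (100 * L * l)) * 2 ^ K2Of l := Nat.mul_le_mul_right _ h1
      _ = 2 ^ (6 * (100 * L * l) + K2Of l) := by rw [pow_add]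
      _ ≤ _ := Nat.pow_le_pow_right (by norm_num) (by omega)
  refine ⟨⟨100 * L * l, aOf (20 * L), 20 * L, 2 * L, 2 ^ (17 * L), K2Of l,
    20 * L + K2Of l + 6 * (100 * L * l), S, hT, le_refl _, hK, hUK, hτ, by omega, hM2⟩,
    rfl, rfl, rfl, rfl, rfl⟩

private theorem K2Of_key (j : ℕ) : 4 * K2Of (j + 101) ≤ 2 ^ (j + 100) := by
  induction j with
  | zero =>
    have h : 4 * K2Of 101 ≤ 2 ^ 100 := by
      unfold K2Of
      norm_num
    simpa using h
  | succ j ih =>
    have e : j + 1 + 100 = (j + 100) + 1 := by omega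
    rw [e, pow_succ]
    unfold K2Of at ih ⊢
    have e2 : j + 1 + 101 = (j + 101) + 1 := by omega
    rw [e2]
    generalize 2 ^ (j + 100) = x at ih ⊢
    clear e e2
    have h0 : 0 ≤ j := Nat.zero_le j
    nlinarith

/-- numerics -/
theorem K2Of_small (L l : ℕ) (hL : 2 ^ 100 ≤ L) (hl : l = Nat.log 2 L + 1) : 4 * K2Of l ≤ L := by
  have hl101 : 101 ≤ l := by
    rw [hl]
    have : 100 ≤ Nat.log 2 L := by
      rw [Nat.le_log_iff_pow_le (by norm_num) (by
        have : 0 < L := lt_of_lt_of_le (by positivity) hL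
        omega)]
      exact hL
    omega
  have hlL : 2 ^ (l - 1) ≤ L := by
    rw [hl, Nat.add_sub_cancel]
    exact Nat.pow_log_le_self 2 (by
      have : 0 < L := lt_of_lt_of_le (by positivity) hL
      omega)
  have key' : 4 * K2Of l ≤ 2 ^ (l - 1) := by
    obtain ⟨j, rfl⟩ : ∃ j, l = j + 101 := ⟨l - 101, by omega⟩
    have := K2Of_key j
    have e : j + 101 - 1 = j + 100 := by omega
    rw [e]; exact this
  exact key'.trans hlL

end Crest.Agent.S0025Lib
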