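import Crest.Agent.S0025Lib.BadCount

/-! # S0025 WP: a good element in two arithmetic progressions -/

set_option autoImplicit false

namespace Crest.Agent.S0025Lib

open Finset

/-- elements of `range K` pairwise congruent modulo `q` number at most `K / q + 1` -/
private lemma card_le_of_modEq {K q : ℕ} (_hq : 0 < q) (A : Finset ℕ) (hA : A ⊆ range K)
    (hmod : ∀ x ∈ A, ∀ y ∈ A, x ≡ y [MOD q]) : (A.card : ℝ) ≤ (K : ℝ) / q + 1 := by
  have h1 : A.card ≤ K / q + 1 := by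
    have h : A.card ≤ (range (K / q + 1)).card := by
      apply Finset.card_le_card_of_injOn (fun x => x / q)
      · intro x hx
        have hx' := mem_range.mp (hA hx)
        simp only [coe_range, Set.mem_Iio]
        exact Nat.lt_succ_of_le (Nat.div_le_div_right hx'.le)
      · intro x hx y hy hxy
        have h := hmod x hx y hy
        have h1 := Nat.div_add_mod x q
        have h2 := Nat.div_add_mod y q
        have hxy' : x / q = y / q := hxy
        unfold Nat.ModEq at h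
        rw [← h1, ← h2, hxy', h]
    simpa using h
  have h2 : ((K / q : ℕ) : ℝ) ≤ (K : ℝ) / q := Nat.cast_div_le
  have h3 : (A.card : ℝ) ≤ ((K / q + 1 : ℕ) : ℝ) := by exact_mod_cast h1
  push_cast at h3
  linarith

private lemma geom1 (x : ℝ) (hx0 : 0 ≤ x) (hx1 : x < 1) (m n : ℕ) :
    ∑ i ∈ Ico m n, x ^ i ≤ x ^ m / (1 - x) := by
  have h1x : 0 < 1 - x := by linarith
  by_cases h : m ≤ n
  · rw [geom_sum_Ico hx1.ne h]
    have : (x ^ n - x ^ m) / (x - 1) = (x ^ m - x ^ n) / (1 - x) := by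
      have : x - 1 ≠ 0 := by linarith
      field_simp
      ring
    rw [this]
    apply div_le_div_of_nonneg_right _ h1x.le
    have : 0 ≤ x ^ n := pow_nonneg hx0 n
    linarith
  · rw [Ico_eq_empty_of_le (by omega)]
    simp only [sum_empty]
    exact div_nonneg (pow_nonneg hx0 m) h1x.le

private lemma geom2 (y : ℝ) (hy : 1 < y) (m n : ℕ) :
    ∑ i ∈ Ico m n, y ^ i ≤ y ^ n / (y - 1) := by
  have hy0 : 0 < y - 1 := by linarith
  have hypos : 0 < y := by linarith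
  by_cases h : m ≤ n
  · rw [geom_sum_Ico hy.ne' h]
    apply div_le_div_of_nonneg_right _ hy0.le
    have : 0 ≤ y ^ m := by positivity
    linarith
  · rw [Ico_eq_empty_of_le (by omega)]
    simp only [sum_empty]
    positivity

private lemma sum_inv_cube (T : ℕ) (hT : 2 ≤ T) :
    ∑ n ∈ Icc 3 T, (1 : ℝ) / (n : ℝ) ^ 3 ≤ 1 / 8 - 1 / (2 * (T : ℝ) ^ 2) := by
  induction T, hT using Nat.le_induction with
  | base => norm_num
  | succ n hn ih =>
    rw [Finset.sum_Icc_succ_top (by omega)]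
    have hn0 : (2 : ℝ) ≤ n := by exact_mod_cast hn
    have key : (1 : ℝ) / ((n + 1 : ℕ) : ℝ) ^ 3 ≤
        1 / (2 * (n : ℝ) ^ 2) - 1 / (2 * ((n + 1 : ℕ) : ℝ) ^ 2) := by
      push_cast
      rw [div_sub_div _ _ (by positivity) (by positivity), div_le_div_iff₀ (by positivity) (by positivity)]
      have h3 : (0 : ℝ) ≤ n := by linarith
      nlinarith [mul_nonneg h3 h3, mul_nonneg (mul_nonneg h3 h3) h3,
        mul_nonneg (mul_nonneg (mul_nonneg h3 h3) h3) h3]
    linarith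

private lemma sum_oddPrimes_le (T K : ℕ) (hT : 2 ≤ T) :
    ∑ p ∈ oddPrimes T, ((K : ℝ) / ((p ^ 3 : ℕ) : ℝ) + 1) ≤ (K : ℝ) / 8 + T := by
  have hsub : oddPrimes T ⊆ Icc 3 T := by
    intro p hp
    simp only [oddPrimes, mem_filter, mem_range] at hp
    have h2 := hp.2.1.two_le
    have h3 : p ≠ 2 := hp.2.2
    simp only [mem_Icc]
    omega
  have h1 : ∑ p ∈ oddPrimes T, ((K : ℝ) / ((p ^ 3 : ℕ) : ℝ) + 1)
      ≤ ∑ p ∈ Icc 3 T, ((K : ℝ) / ((p ^ 3 : ℕ) : ℝ) + 1) := by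
    apply Finset.sum_le_sum_of_subset_of_nonneg hsub
    intro i _ _
    positivity
  have h2 : ∑ p ∈ Icc 3 T, ((K : ℝ) / ((p ^ 3 : ℕ) : ℝ) + 1)
      = (K : ℝ) * ∑ p ∈ Icc 3 T, (1 : ℝ) / (p : ℝ) ^ 3 + ((Icc 3 T).card : ℝ) := by
    rw [Finset.sum_add_distrib, Finset.mul_sum]
    congr 1
    · apply Finset.sum_congr rfl
      intro p _
      push_cast
      ring
    · simp
  have h3 := sum_inv_cube T hT
  have h4 : ((Icc 3 T).card : ℝ) ≤ T := by
    have : (Icc 3 T).card ≤ T := by rw [Nat.card_Icc]; omega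
    exact_mod_cast this
  have hTpos : (0 : ℝ) < 2 * (T : ℝ) ^ 2 := by
    have : (2 : ℝ) ≤ T := by exact_mod_cast hT
    positivity
  have h5 : ∑ p ∈ Icc 3 T, (1 : ℝ) / (p : ℝ) ^ 3 ≤ 1 / 8 := by
    have : (0 : ℝ) ≤ 1 / (2 * (T : ℝ) ^ 2) := by positivity
    linarith
  have h6 : (K : ℝ) * ∑ p ∈ Icc 3 T, (1 : ℝ) / (p : ℝ) ^ 3 ≤ (K : ℝ) * (1 / 8) :=
    mul_le_mul_of_nonneg_left h5 (by positivity)
  calc _ ≤ _ := h1
    _ = _ := h2
    _ ≤ (K : ℝ) / 8 + T := by linarith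

/-- The hypotheses on a linear form. -/
private structure Form (K : ℕ) (F : ℕ → ℕ) : Prop where
  pos : ∀ ℓ < K, 0 < F ℓ
  cong : ∀ q, 0 < q → ∀ x < K, ∀ y < K, q ∣ F x → q ∣ F y → x ≡ y [MOD q]

private lemma Form.card_le {K : ℕ} {F : ℕ → ℕ} (hF : Form K F) {q : ℕ} (hq : 0 < q) :
    (((range K).filter fun ℓ => q ∣ F ℓ).card : ℝ) ≤ (K : ℝ) / q + 1 := by
  apply card_le_of_modEq hq _ (filter_subset _ _)
  intro x hx y hy
  simp only [mem_filter, mem_range] at hx hy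
  exact hF.cong q hq x hx.1 y hy.1 hx.2 hy.2

private lemma aOf_mono {h H : ℕ} (hh : h ≤ H) : aOf h ≤ aOf H :=
  Nat.div_le_div_right (by omega)

open Classical in
private theorem two_mul_card_bad_lt {T Amax H K : ℕ} (S : Split T Amax) (hT : 2 ^ 100 ≤ T)
    (hA : aOf H ≤ Amax) (hK : 8 * ((T : ℝ) + 64 * (7 / 4 : ℝ) ^ H) ≤ K) {F : ℕ → ℕ}
    (hF : Form K F) :
    2 * ((range K).filter fun ℓ => F ℓ ≤ 2 ^ H ∧ ¬ Good S (F ℓ)).card < K := by
  set A : ℕ → Finset ℕ := fun q => (range K).filter fun ℓ => q ∣ F ℓ with hAdef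
  have hsub : ((range K).filter fun ℓ => F ℓ ≤ 2 ^ H ∧ ¬ Good S (F ℓ)) ⊆
      (oddPrimes T).biUnion (fun p => A (p ^ 3)) ∪
        (Ico 100 (H + 1)).biUnion (fun h => (badSet S h).biUnion A) := by
    intro ℓ hℓ
    simp only [mem_filter, mem_range] at hℓ
    obtain ⟨hℓK, hle, hbad⟩ := hℓ
    have hpos := hF.pos ℓ hℓK
    unfold Good at hbad
    rw [not_and_or] at hbad
    rcases hbad with h1 | h2
    · push Not at h1
      obtain ⟨p, hp, hdvd⟩ := h1
      apply mem_union_left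
      simp only [mem_biUnion]
      refine ⟨p, hp, ?_⟩
      simp only [hAdef, mem_filter, mem_range]
      exact ⟨hℓK, hdvd⟩
    · push Not at h2
      obtain ⟨q, hqd, hq1, hrough, hng⟩ := h2
      apply mem_union_right
      have hqle : q ≤ F ℓ := Nat.le_of_dvd hpos hqd
      have hqT : T < q := by
        have hmf := Nat.minFac_prime (n := q) (by omega)
        have := hrough _ hmf (Nat.minFac_dvd q)
        have h2 := Nat.minFac_le (n := q) (by omega)
        omega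
      have hq0 : q ≠ 0 := by omega
      have hlow : 100 ≤ Nat.log 2 q := Nat.le_log_of_pow_le (by norm_num) (by omega)
      have hhigh : Nat.log 2 q ≤ H := by
        have := Nat.log_mono_right (b := 2) (hqle.trans hle)
        rwa [Nat.log_pow (by norm_num)] at this
      simp only [mem_biUnion]
      refine ⟨Nat.log 2 q, mem_Ico.mpr ⟨hlow, by omega⟩, q, ?_, ?_⟩
      · simp only [badSet, mem_filter, mem_Ico]
        exact ⟨⟨Nat.pow_log_le_self 2 hq0, Nat.lt_pow_succ_log_self (by norm_num) q⟩, hrough, hng⟩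
      · simp only [hAdef, mem_filter, mem_range]
        exact ⟨hℓK, hqd⟩
  have hcard := card_le_card hsub
  have hcard2 := (card_le_card hsub).trans (card_union_le _ _)
  have hc1 : (((oddPrimes T).biUnion (fun p => A (p ^ 3))).card : ℝ) ≤
      ∑ p ∈ oddPrimes T, ((K : ℝ) / ((p ^ 3 : ℕ) : ℝ) + 1) := by
    have h := card_biUnion_le (s := oddPrimes T) (t := fun p => A (p ^ 3))
    have h' : (((oddPrimes T).biUnion (fun p => A (p ^ 3))).card : ℝ) ≤
        ∑ p ∈ oddPrimes T, ((A (p ^ 3)).card : ℝ) := by exact_mod_cast h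
    refine h'.trans (Finset.sum_le_sum ?_)
    intro p hp
    simp only [oddPrimes, mem_filter] at hp
    exact hF.card_le (pow_pos hp.2.1.pos 3)
  have hT2 : 2 ≤ T := by
    have : 2 ≤ 2 ^ 100 := by norm_num
    omega
  have hc1' := sum_oddPrimes_le T K hT2
  have hKnn : (0 : ℝ) ≤ K := by positivity
  have hc2 : (((Ico 100 (H + 1)).biUnion (fun h => (badSet S h).biUnion A)).card : ℝ) ≤
      ∑ h ∈ Ico 100 (H + 1), (16 * (K : ℝ) * (7 / 8 : ℝ) ^ h + 16 * (7 / 4 : ℝ) ^ h) := by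
    have h := card_biUnion_le (s := Ico 100 (H + 1)) (t := fun h => (badSet S h).biUnion A)
    have h' : (((Ico 100 (H + 1)).biUnion (fun h => (badSet S h).biUnion A)).card : ℝ) ≤
        ∑ h ∈ Ico 100 (H + 1), (((badSet S h).biUnion A).card : ℝ) := by exact_mod_cast h
    refine h'.trans (Finset.sum_le_sum ?_)
    intro h hh
    have hhH : h ≤ H := by
      have := (mem_Ico.mp hh).2
      omega
    have hbadcard := card_badSet_le S hT (h := h) ((aOf_mono hhH).trans hA)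
    have hin := card_biUnion_le (s := badSet S h) (t := A)
    have hin' : (((badSet S h).biUnion A).card : ℝ) ≤ ∑ q ∈ badSet S h, ((A q).card : ℝ) := by
      exact_mod_cast hin
    have hterm : ∀ q ∈ badSet S h, ((A q).card : ℝ) ≤ (K : ℝ) / 2 ^ h + 1 := by
      intro q hq
      simp only [badSet, mem_filter, mem_Ico] at hq
      have hq2 : 2 ^ h ≤ q := hq.1.1
      have hq0 : 0 < q := lt_of_lt_of_le (by positivity) hq2
      refine (hF.card_le hq0).trans ?_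
      have hcast : ((2 : ℝ) ^ h) ≤ (q : ℝ) := by exact_mod_cast hq2
      have : (K : ℝ) / q ≤ (K : ℝ) / 2 ^ h :=
        div_le_div_of_nonneg_left hKnn (by positivity) hcast
      linarith
    have hsum : ∑ q ∈ badSet S h, ((A q).card : ℝ) ≤
        ((badSet S h).card : ℝ) * ((K : ℝ) / 2 ^ h + 1) := by
      have := Finset.sum_le_card_nsmul _ _ _ hterm
      rwa [nsmul_eq_mul] at this
    have hbound : ((badSet S h).card : ℝ) * ((K : ℝ) / 2 ^ h + 1) ≤
        16 * (7 / 4 : ℝ) ^ h * ((K : ℝ) / 2 ^ h + 1) :=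
      mul_le_mul_of_nonneg_right hbadcard (by positivity)
    have heq : 16 * (7 / 4 : ℝ) ^ h * ((K : ℝ) / 2 ^ h + 1) =
        16 * (K : ℝ) * (7 / 8 : ℝ) ^ h + 16 * (7 / 4 : ℝ) ^ h := by
      have : (7 / 8 : ℝ) ^ h = (7 / 4 : ℝ) ^ h / 2 ^ h := by
        rw [← div_pow]
        norm_num
      rw [this]
      field_simp
    linarith
  have hg1 := geom1 (7 / 8) (by norm_num) (by norm_num) 100 (H + 1)
  have hg2 := geom2 (7 / 4) (by norm_num) 100 (H + 1)
  have hsumsplit : ∑ h ∈ Ico 100 (H + 1), (16 * (K : ℝ) * (7 / 8 : ℝ) ^ h + 16 * (7 / 4 : ℝ) ^ h)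
      = 16 * (K : ℝ) * ∑ h ∈ Ico 100 (H + 1), (7 / 8 : ℝ) ^ h
        + 16 * ∑ h ∈ Ico 100 (H + 1), (7 / 4 : ℝ) ^ h := by
    rw [Finset.sum_add_distrib, Finset.mul_sum, Finset.mul_sum]
  have hsmall : (7 / 8 : ℝ) ^ 100 / (1 - 7 / 8) ≤ 1 / 1600 := by norm_num
  have hb1 : 16 * (K : ℝ) * ∑ h ∈ Ico 100 (H + 1), (7 / 8 : ℝ) ^ h ≤ (K : ℝ) / 100 := by
    have : ∑ h ∈ Ico 100 (H + 1), (7 / 8 : ℝ) ^ h ≤ 1 / 1600 := hg1.trans hsmall
    have h2 : 16 * (K : ℝ) * ∑ h ∈ Ico 100 (H + 1), (7 / 8 : ℝ) ^ h ≤ 16 * (K : ℝ) * (1 / 1600) :=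
      mul_le_mul_of_nonneg_left this (by positivity)
    linarith
  have hb2 : 16 * ∑ h ∈ Ico 100 (H + 1), (7 / 4 : ℝ) ^ h ≤ 64 * (7 / 4 : ℝ) ^ H := by
    have : (7 / 4 : ℝ) ^ (H + 1) / (7 / 4 - 1) = (7 / 3 : ℝ) * (7 / 4 : ℝ) ^ H := by
      rw [pow_succ]
      ring
    rw [this] at hg2
    have hpos : (0 : ℝ) < (7 / 4 : ℝ) ^ H := by positivity
    nlinarith
  have hTpos : (0 : ℝ) < T := by
    have : (0 : ℕ) < T := by omega
    exact_mod_cast this
  have hKpos : (0 : ℝ) < K := by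
    have hpos : (0 : ℝ) < (7 / 4 : ℝ) ^ H := by positivity
    nlinarith
  have hfinal : (((range K).filter fun ℓ => F ℓ ≤ 2 ^ H ∧ ¬ Good S (F ℓ)).card : ℝ) ≤
      (K : ℝ) / 8 + T + ((K : ℝ) / 100 + 64 * (7 / 4 : ℝ) ^ H) := by
    have h1 : (((range K).filter fun ℓ => F ℓ ≤ 2 ^ H ∧ ¬ Good S (F ℓ)).card : ℝ) ≤
        (((oddPrimes T).biUnion (fun p => A (p ^ 3))).card : ℝ) +
        (((Ico 100 (H + 1)).biUnion (fun h => (badSet S h).biUnion A)).card : ℝ) := by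
      exact_mod_cast hcard2
    rw [hsumsplit] at hc2
    linarith
  have : (2 : ℝ) * (((range K).filter fun ℓ => F ℓ ≤ 2 ^ H ∧ ¬ Good S (F ℓ)).card : ℝ) < K := by
    nlinarith
  exact_mod_cast this

private lemma form1 {K c v : ℕ} (hc : 0 < c) (hcv : Nat.Coprime c v) :
    Form K (fun ℓ => c + ℓ * v) where
  pos := fun _ _ => by positivity
  cong := by
    intro q _ x _ y _ hx hy
    have hx' : q ∣ c + x * v := hx
    have hy' : q ∣ c + y * v := hy
    have hg : Nat.gcd q v = 1 := by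
      have h1 : Nat.gcd q v ∣ c + x * v := (Nat.gcd_dvd_left q v).trans hx'
      have h2 : Nat.gcd q v ∣ x * v := (Nat.gcd_dvd_right q v).mul_left x
      have h3 : Nat.gcd q v ∣ c := (Nat.dvd_add_left h2).mp h1
      have h4 : Nat.gcd q v ∣ Nat.gcd c v := Nat.dvd_gcd h3 (Nat.gcd_dvd_right q v)
      rw [hcv] at h4
      exact Nat.dvd_one.mp h4
    have hmod : c + x * v ≡ c + y * v [MOD q] :=
      ((Nat.modEq_zero_iff_dvd).mpr hx').trans ((Nat.modEq_zero_iff_dvd).mpr hy').symm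
    have h2 : x * v ≡ y * v [MOD q] := Nat.ModEq.add_left_cancel' c hmod
    exact Nat.ModEq.cancel_right_of_coprime hg h2

private lemma form2 {K m₀ : ℕ} (hm₀ : K ≤ m₀) : Form K (fun ℓ => m₀ - ℓ) where
  pos := fun ℓ hℓ => by
    show 0 < m₀ - ℓ
    omega
  cong := by
    intro q _ x hx y hy hdx hdy
    have h1 : x ≡ m₀ [MOD q] := (Nat.modEq_iff_dvd' (by omega)).mpr hdx
    have h2 : y ≡ m₀ [MOD q] := (Nat.modEq_iff_dvd' (by omega)).mpr hdy
    exact h1.trans h2.symm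

open Classical in
/-- Union bound. For a form `F` with `#{ℓ < K : q ∣ F ℓ} ≤ K / q + 1`:
the number of bad `ℓ` is at most `∑_{p odd ≤ T} (K/p^3 + 1) + ∑_{h ≤ H} #bad_h (K/2^h + 1)`, less than `K / 2`. -/
theorem exists_good_ell {T Amax H K : ℕ} (S : Split T Amax) (hT : 2 ^ 100 ≤ T) (hA : aOf H ≤ Amax)
    (hK : 8 * ((T : ℝ) + 64 * (7 / 4 : ℝ) ^ H) ≤ K) {c v m₀ : ℕ} (hc : 0 < c)
    (hcv : Nat.Coprime c v) (hv : 0 < v) (hm₀ : K ≤ m₀) (hval : ∀ ℓ < K, c + ℓ * v ≤ 2 ^ H) :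
    ∃ ℓ < K, Good S (c + ℓ * v) ∧ (m₀ - ℓ ≤ 2 ^ H → Good S (m₀ - ℓ)) := by
  have h1 := two_mul_card_bad_lt S hT hA hK (form1 (K := K) hc hcv)
  have h2 := two_mul_card_bad_lt S hT hA hK (form2 (K := K) hm₀)
  by_contra hcon
  push Not at hcon
  have hsub : range K ⊆
      ((range K).filter fun ℓ => c + ℓ * v ≤ 2 ^ H ∧ ¬ Good S (c + ℓ * v)) ∪
      ((range K).filter fun ℓ => m₀ - ℓ ≤ 2 ^ H ∧ ¬ Good S (m₀ - ℓ)) := by
    intro ℓ hℓ
    have hℓK := mem_range.mp hℓ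
    by_cases hg : Good S (c + ℓ * v)
    · have := hcon ℓ hℓK hg
      apply mem_union_right
      simp only [mem_filter, mem_range]
      exact ⟨hℓK, this.1, this.2⟩
    · apply mem_union_left
      simp only [mem_filter, mem_range]
      exact ⟨hℓK, hval ℓ hℓK, hg⟩
  have hc3 := (card_le_card hsub).trans (card_union_le _ _)
  simp only [card_range] at hc3
  omega

end Crest.Agent.S0025Lib
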