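import Crest.Agent.S0025Lib.Finish
import Crest.Agent.S0025Lib.Sieve

/-! # S0025 WP: one round of the descent, and the main induction -/

set_option autoImplicit false

namespace Crest.Agent.S0025Lib

open Finset

/-- All the parameters of the descent. -/
structure Params where
  T : ℕ
  Amax : ℕ
  H : ℕ
  τ : ℕ
  K : ℕ
  K₂ : ℕ
  M : ℕ
  S : Split T Amax
  hT : 2 ^ 100 ≤ T
  hAmax : aOf H ≤ Amax
  hK : 8 * ((T : ℝ) + 64 * (7 / 4 : ℝ) ^ H) ≤ K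
  hUK : (2 * 2 ^ τ + 1) * (K + 1) ≤ 2 ^ H
  hτ : 2 ≤ τ
  hM : H + K₂ ≤ M
  hM2 : oddPrimorial T ^ 3 * 2 ^ K₂ ≤ 2 ^ (M + 1)

/-- `R = 2^M P^3`. -/
def Params.R (p : Params) : ℕ := 2 ^ p.M * oddPrimorial p.T ^ 3

theorem oddPrimorial_pos' (T : ℕ) : 0 < oddPrimorial T := by
  unfold oddPrimorial
  refine Finset.prod_pos ?_
  intro q hq
  simp only [oddPrimes, Finset.mem_filter] at hq
  exact hq.2.1.pos

theorem Params.R_pos (p : Params) : 0 < p.R := by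
  unfold Params.R
  have := oddPrimorial_pos' p.T
  positivity

theorem uf_nil : uf [] = 0 := by simp [uf]

theorem uf_append (l₁ l₂ : List ℕ) : uf (l₁ ++ l₂) = uf l₁ + uf l₂ := by
  simp [uf, List.map_append, List.sum_append]

theorem Rep.add {K A B : ℕ} {x y : ℚ} (hx : Rep K A x) (hy : Rep K B y) :
    Rep K (A + B) (x + y) := by
  obtain ⟨l₁, h1, h2, h3⟩ := hx
  obtain ⟨l₂, h4, h5, h6⟩ := hy
  refine ⟨l₁ ++ l₂, by simp; omega, ?_, by rw [uf_append, h3, h6]⟩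
  intro n hn
  rcases List.mem_append.mp hn with h | h
  · exact h2 n h
  · exact h5 n h

theorem Rep.mono {K A B : ℕ} {x : ℚ} (hx : Rep K A x) (h : A ≤ B) : Rep K B x := by
  obtain ⟨l₁, h1, h2, h3⟩ := hx
  exact ⟨l₁, h1.trans h, h2, h3⟩

theorem Rep.single {K n : ℕ} (h0 : 0 < n) (h : 2 ^ K ∣ n) : Rep K 1 ((1 : ℚ) / (n : ℚ)) := by
  refine ⟨[n], by simp, ?_, by simp [uf]⟩
  intro m hm
  simp only [List.mem_singleton] at hm
  subst hm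
  exact ⟨h0, h⟩

/-- dyadic window -/
theorem exists_pow_window (x y lo : ℕ) (hy : 0 < y) (h1 : 2 ^ lo * y ≤ x) :
    ∃ i, lo ≤ i ∧ 2 ^ i * y ≤ x ∧ x < 2 ^ (i + 1) * y := by
  have hq : 2 ^ lo ≤ x / y := (Nat.le_div_iff_mul_le hy).mpr h1
  have hq0 : x / y ≠ 0 := by
    have : 0 < 2 ^ lo := by positivity
    omega
  refine ⟨Nat.log 2 (x / y), ?_, ?_, ?_⟩
  · exact (Nat.le_log_iff_pow_le (by norm_num) hq0).mpr hq
  · have h2 : 2 ^ Nat.log 2 (x / y) ≤ x / y := Nat.pow_log_le_self 2 hq0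
    exact (Nat.le_div_iff_mul_le hy).mp h2
  · have h2 : x / y < 2 ^ (Nat.log 2 (x / y) + 1) := Nat.lt_pow_succ_log_self (by norm_num) _
    exact (Nat.div_lt_iff_lt_mul hy).mp h2

/-- The choice of `w`. -/
theorem exists_w {M K₂ P3 N D : ℕ} (hP3 : 0 < P3) (hN : 0 < N)
    (hM2 : P3 * 2 ^ K₂ ≤ 2 ^ (M + 1))
    (h1 : 2 ^ K₂ * N ≤ D) (h2 : D < 2 ^ M * P3 * N) :
    ∃ w, w ∣ 2 ^ M * P3 ∧ 2 ^ K₂ ∣ w ∧ w * N ≤ D ∧ D < 2 * w * N := by
  by_cases hc : D < 2 ^ (M + 1) * N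
  · obtain ⟨i, hi1, hi2, hi3⟩ := exists_pow_window D N K₂ hN h1
    have him : i ≤ M := by
      by_contra hlt
      have h3 : 2 ^ (M + 1) ≤ 2 ^ i := Nat.pow_le_pow_right (by norm_num) (by omega)
      have h4 : 2 ^ (M + 1) * N ≤ 2 ^ i * N := Nat.mul_le_mul_right _ h3
      omega
    refine ⟨2 ^ i, ?_, pow_dvd_pow 2 hi1, hi2, ?_⟩
    · exact Dvd.dvd.mul_right (pow_dvd_pow 2 him) _
    · rw [pow_succ] at hi3
      calc D < 2 ^ i * 2 * N := hi3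
        _ = 2 * 2 ^ i * N := by ring
  · have h3 : 2 ^ K₂ * (P3 * N) ≤ D := by
      have h4 : P3 * 2 ^ K₂ * N ≤ 2 ^ (M + 1) * N := Nat.mul_le_mul_right _ hM2
      have h5 : 2 ^ K₂ * (P3 * N) = P3 * 2 ^ K₂ * N := by ring
      omega
    obtain ⟨i, hi1, hi2, hi3⟩ := exists_pow_window D (P3 * N) K₂ (Nat.mul_pos hP3 hN) h3
    have him : i ≤ M := by
      by_contra hlt
      have h6 : 2 ^ M ≤ 2 ^ i := Nat.pow_le_pow_right (by norm_num) (by omega)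
      have h7 : 2 ^ M * (P3 * N) ≤ 2 ^ i * (P3 * N) := Nat.mul_le_mul_right _ h6
      have h8 : 2 ^ M * P3 * N = 2 ^ M * (P3 * N) := by ring
      omega
    refine ⟨2 ^ i * P3, ?_, ?_, ?_, ?_⟩
    · exact Nat.mul_dvd_mul_right (pow_dvd_pow 2 him) _
    · exact Dvd.dvd.mul_right (pow_dvd_pow 2 hi1) _
    · calc 2 ^ i * P3 * N = 2 ^ i * (P3 * N) := by ring
        _ ≤ D := hi2
    · calc D < 2 ^ (i + 1) * (P3 * N) := hi3
        _ = 2 * (2 ^ i * P3) * N := by rw [pow_succ]; ring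

/-- One round: `n / D = (19 unit fractions) + n₁ / D`, `n₁ ≈ n / U`, `n₁` good when small.
`N = n U`. Choose `w ∣ R`, `2^K₂ ∣ w`, `w N ≤ D < 2 w N`; `E₀ = D / w`, `u = E₀ / n + 2 ∈ [U + 2, 2 U + 1]`,
`n' = n u - E₀ ∈ (n, 2 n]`, `n / D = 1 / (w u) + n' / (D u)`; `g = gcd(n', u)`, `n'' = n' / g`, `v = u / g`, `c ∈ [1, v]`,
`c ≡ n'' mod v`, `m₀ = (n'' - c) / v ≥ K`; apply `exists_good_ell` to `c + ℓ v`, `m₀ - ℓ`; `n' / (D u) = (c + ℓ v) / (D v) + (m₀ - ℓ) / D`. -/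
theorem round (p : Params) {b n : ℕ} (hb : 0 < b) (hn : 2 ^ p.H < n) (hbn : b ≤ 2 ^ p.H * 2 ^ p.τ)
    (hnV : n * (2 ^ p.K₂ * 2 ^ p.τ) ≤ b * p.R) :
    ∃ n₁ : ℕ, 0 < n₁ ∧ n₁ * 2 ^ p.τ ≤ 2 * n ∧ (n₁ ≤ 2 ^ p.H → Good p.S n₁) ∧
      Rep p.K₂ 19 ((n : ℚ) / ((b * p.R : ℕ) : ℚ) - (n₁ : ℚ) / ((b * p.R : ℕ) : ℚ)) := by
  have hT18 : 2 ^ 18 < p.T := lt_of_lt_of_le (by norm_num) p.hT
  have hnpos : 0 < n := lt_of_le_of_lt (Nat.zero_le _) hn
  have hP3pos : 0 < oddPrimorial p.T ^ 3 := pow_pos (oddPrimorial_pos' _) 3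
  have hRpos := p.R_pos
  obtain ⟨U, hU⟩ : ∃ U, U = 2 ^ p.τ := ⟨_, rfl⟩
  have hUpos : 0 < U := by rw [hU]; positivity
  obtain ⟨D, hD⟩ : ∃ D, D = b * p.R := ⟨_, rfl⟩
  have hDpos : 0 < D := by rw [hD]; positivity
  have hNpos : 0 < n * U := Nat.mul_pos hnpos hUpos
  -- the choice of `w`
  have h1 : 2 ^ p.K₂ * (n * U) ≤ D := by
    rw [hD, hU]
    calc 2 ^ p.K₂ * (n * 2 ^ p.τ) = n * (2 ^ p.K₂ * 2 ^ p.τ) := by ring
      _ ≤ _ := hnV
  have h2 : D < 2 ^ p.M * oddPrimorial p.T ^ 3 * (n * U) := by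
    have h3 : b < n * U := by
      calc b ≤ 2 ^ p.H * 2 ^ p.τ := hbn
        _ < n * 2 ^ p.τ := Nat.mul_lt_mul_of_pos_right hn (by positivity)
        _ = n * U := by rw [hU]
    rw [hD]
    unfold Params.R
    calc b * (2 ^ p.M * oddPrimorial p.T ^ 3) < (n * U) * (2 ^ p.M * oddPrimorial p.T ^ 3) :=
          Nat.mul_lt_mul_of_pos_right h3 (by positivity)
      _ = _ := by ring
  obtain ⟨w, hwR, hwK, hwN, hwD⟩ := exists_w hP3pos hNpos p.hM2 h1 h2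
  have hwpos : 0 < w := by
    rcases Nat.eq_zero_or_pos w with h | h
    · rw [h] at hwD; simp at hwD
    · exact h
  have hwD' : w ∣ D := by
    rw [hD]
    exact Dvd.dvd.mul_left hwR _
  obtain ⟨E₀, hE₀⟩ := hwD'
  have hE₀lo : n * U ≤ E₀ := by
    rw [hE₀] at hwN
    exact Nat.le_of_mul_le_mul_left hwN hwpos
  have hE₀hi : E₀ < 2 * (n * U) := by
    rw [hE₀] at hwD
    have : w * E₀ < w * (2 * (n * U)) := by
      calc w * E₀ < 2 * w * (n * U) := hwD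
        _ = _ := by ring
    exact Nat.lt_of_mul_lt_mul_left this
  -- `u` and `n'`
  obtain ⟨e, he⟩ : ∃ e, e = E₀ / n := ⟨_, rfl⟩
  obtain ⟨r, hr⟩ : ∃ r, r = E₀ % n := ⟨_, rfl⟩
  have hEdiv : n * e + r = E₀ := by rw [he, hr]; exact Nat.div_add_mod _ _
  have hrlt : r < n := by rw [hr]; exact Nat.mod_lt _ hnpos
  have helo : U ≤ e := by
    rw [he]
    apply (Nat.le_div_iff_mul_le hnpos).mpr
    rw [mul_comm]; exact hE₀lo
  have hehi : e + 1 ≤ 2 * U := by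
    have : e < 2 * U := by
      rw [he]
      apply (Nat.div_lt_iff_lt_mul hnpos).mpr
      calc E₀ < 2 * (n * U) := hE₀hi
        _ = 2 * U * n := by ring
    omega
  obtain ⟨u, hu⟩ : ∃ u, u = e + 2 := ⟨_, rfl⟩
  obtain ⟨n', hn'⟩ : ∃ n', n' = 2 * n - r := ⟨_, rfl⟩
  have hn'eq : n * u = E₀ + n' := by
    rw [hu, hn', ← hEdiv]
    have : r ≤ 2 * n := by omega
    have h3 : n * (e + 2) = n * e + 2 * n := by ring
    rw [h3]; omega
  have hn'lo : n < n' := by omega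
  have hn'hi : n' ≤ 2 * n := by omega
  have hupos : 0 < u := by omega
  have hule : u ≤ 2 * U + 1 := by omega
  have hUu : U ≤ u := by omega
  -- `g`, `n''`, `v`
  obtain ⟨g, hg⟩ : ∃ g, g = Nat.gcd n' u := ⟨_, rfl⟩
  have hgpos : 0 < g := by rw [hg]; exact Nat.gcd_pos_of_pos_right _ hupos
  obtain ⟨n'', hn''⟩ : ∃ n'', n' = g * n'' := by rw [hg]; exact Nat.gcd_dvd_left _ _
  obtain ⟨v, hv⟩ : ∃ v, u = g * v := by rw [hg]; exact Nat.gcd_dvd_right _ _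
  have hvpos : 0 < v := by
    rcases Nat.eq_zero_or_pos v with h | h
    · rw [h] at hv; omega
    · exact h
  have hn''pos : 0 < n'' := by
    rcases Nat.eq_zero_or_pos n'' with h | h
    · rw [h] at hn''; omega
    · exact h
  have hcop : Nat.Coprime n'' v := by
    have h3 : Nat.gcd (g * n'') (g * v) = g * Nat.gcd n'' v := Nat.gcd_mul_left _ _ _
    rw [← hn'', ← hv, ← hg] at h3
    have h4 : g * 1 = g * Nat.gcd n'' v := by omega
    exact (Nat.eq_of_mul_eq_mul_left hgpos h4).symm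
  -- `c` and `m₀`
  obtain ⟨c, hc⟩ : ∃ c, c = (n'' - 1) % v + 1 := ⟨_, rfl⟩
  obtain ⟨m₀, hm₀⟩ : ∃ m₀, m₀ = (n'' - 1) / v := ⟨_, rfl⟩
  have hcle : c ≤ v := by
    have := Nat.mod_lt (n'' - 1) hvpos
    omega
  have hcpos : 0 < c := by omega
  have hn''eq : n'' = c + v * m₀ := by
    have := Nat.div_add_mod (n'' - 1) v
    rw [hc, hm₀]
    omega
  have hccop : Nat.Coprime c v := by
    have h3 : Nat.Coprime (c + v * m₀) v := by rw [← hn''eq]; exact hcop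
    simpa [Nat.Coprime, Nat.gcd_add_mul_left_left] using h3
  have hUKU : (2 * U + 1) * (p.K + 1) ≤ 2 ^ p.H := by rw [hU]; exact p.hUK
  have hm₀K : p.K ≤ m₀ := by
    by_contra hlt
    have hlt' : m₀ + 1 ≤ p.K := by omega
    have h3 : n' ≤ (2 * U + 1) * p.K := by
      calc n' = g * n'' := hn''
        _ = g * (c + v * m₀) := by rw [← hn''eq]
        _ ≤ g * (v + v * m₀) := Nat.mul_le_mul_left _ (by omega)
        _ = (g * v) * (m₀ + 1) := by ring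
        _ = u * (m₀ + 1) := by rw [hv]
        _ ≤ (2 * U + 1) * p.K := Nat.mul_le_mul hule hlt'
    have h4 : (2 * U + 1) * p.K ≤ (2 * U + 1) * (p.K + 1) := Nat.mul_le_mul_left _ (by omega)
    omega
  have hval : ∀ ℓ < p.K, c + ℓ * v ≤ 2 ^ p.H := by
    intro ℓ hℓ
    have hvu : v ≤ u := by rw [hv]; exact Nat.le_mul_of_pos_left _ hgpos
    calc c + ℓ * v ≤ v + ℓ * v := by omega
      _ = (ℓ + 1) * v := by ring
      _ ≤ p.K * (2 * U + 1) := Nat.mul_le_mul (by omega) (hvu.trans hule)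
      _ = (2 * U + 1) * p.K := by ring
      _ ≤ (2 * U + 1) * (p.K + 1) := Nat.mul_le_mul_left _ (by omega)
      _ ≤ 2 ^ p.H := hUKU
  obtain ⟨ℓ, hℓK, hGf, hGn₁⟩ :=
    exists_good_ell p.S p.hT p.hAmax p.hK hcpos hccop hvpos hm₀K hval
  obtain ⟨f, hf⟩ : ∃ f, f = c + ℓ * v := ⟨_, rfl⟩
  obtain ⟨n₁, hn₁⟩ : ∃ n₁, n₁ = m₀ - ℓ := ⟨_, rfl⟩
  rw [← hf] at hGf
  rw [← hn₁] at hGn₁
  have hfpos : 0 < f := by omega
  have hn₁pos : 0 < n₁ := by omega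
  have hn''f : n'' = f + v * n₁ := by
    rw [hn''eq, hf, hn₁]
    have hℓm : ℓ ≤ m₀ := by omega
    obtain ⟨s, hs⟩ := Nat.exists_eq_add_of_le hℓm
    rw [hs, Nat.add_sub_cancel_left]
    ring
  have hn₁U : n₁ * U ≤ 2 * n := by
    have h3 : v * n₁ ≤ n'' := by omega
    calc n₁ * U ≤ n₁ * u := Nat.mul_le_mul_left _ hUu
      _ = g * (v * n₁) := by rw [hv]; ring
      _ ≤ g * n'' := Nat.mul_le_mul_left _ h3
      _ = n' := hn''.symm
      _ ≤ 2 * n := hn'hi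
  refine ⟨n₁, hn₁pos, by rw [← hU]; exact hn₁U, hGn₁, ?_⟩
  rw [← hD]
  -- the two representations
  have hR1 : Rep p.K₂ 1 ((1 : ℚ) / ((w * u : ℕ) : ℚ)) :=
    Rep.single (Nat.mul_pos hwpos hupos) (Dvd.dvd.mul_right hwK _)
  have hdvd : oddPrimorial p.T ^ 3 * 2 ^ (p.H + p.K₂) ∣ D * v := by
    apply Dvd.dvd.mul_right
    rw [hD]
    apply Dvd.dvd.mul_left
    unfold Params.R
    rw [mul_comm]
    exact Nat.mul_dvd_mul_right (pow_dvd_pow 2 p.hM) _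
  have hR2 : Rep p.K₂ 18 ((f : ℚ) / ((D * v : ℕ) : ℚ)) :=
    finish p.S hT18 p.hAmax hfpos (by rw [hf]; exact hval ℓ hℓK) hGf hdvd (Nat.mul_pos hDpos hvpos)
  have hsum := hR1.add hR2
  have hid : (n : ℚ) / (D : ℚ) - (n₁ : ℚ) / (D : ℚ) =
      (1 : ℚ) / ((w * u : ℕ) : ℚ) + (f : ℚ) / ((D * v : ℕ) : ℚ) := by
    have hDq : (D : ℚ) ≠ 0 := by exact_mod_cast hDpos.ne'
    have hwq : (w : ℚ) ≠ 0 := by exact_mod_cast hwpos.ne'
    have huq : (u : ℚ) ≠ 0 := by exact_mod_cast hupos.ne'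
    have hvq : (v : ℚ) ≠ 0 := by exact_mod_cast hvpos.ne'
    have hgq : (g : ℚ) ≠ 0 := by exact_mod_cast hgpos.ne'
    have hE₀q : (D : ℚ) = (w : ℚ) * (E₀ : ℚ) := by exact_mod_cast hE₀
    have huq' : (u : ℚ) = (g : ℚ) * (v : ℚ) := by exact_mod_cast hv
    have hn'q : (n' : ℚ) = (g : ℚ) * ((f : ℚ) + (v : ℚ) * (n₁ : ℚ)) := by
      have : n' = g * (f + v * n₁) := by rw [← hn''f]; exact hn''
      exact_mod_cast this
    have hnu : (n : ℚ) * (u : ℚ) = (E₀ : ℚ) + (n' : ℚ) := by exact_mod_cast hn'eq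
    have hE₀ne : (E₀ : ℚ) ≠ 0 := by
      intro h
      apply hDq
      rw [hE₀q, h, mul_zero]
    push_cast
    rw [hE₀q]
    field_simp
    have hn' : (n : ℚ) * ((g : ℚ) * (v : ℚ)) = (E₀ : ℚ) + (g : ℚ) * ((f : ℚ) + (v : ℚ) * (n₁ : ℚ)) := by
      rw [← huq', hnu, hn'q]
    rw [huq']
    linear_combination (v : ℚ) * hn'
  rw [hid]
  exact hsum

/-- Main induction on the fuel `r`. -/
theorem main_induction (p : Params) {b : ℕ} (hb : 0 < b) (hbn : b ≤ 2 ^ p.H * 2 ^ p.τ) (r : ℕ) :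
    ∀ n : ℕ, 0 < n → n ≤ 2 ^ p.H * (2 ^ (p.τ - 1)) ^ r → (n ≤ 2 ^ p.H → Good p.S n) →
      n * (2 ^ p.K₂ * 2 ^ p.τ) ≤ b * p.R →
      Rep p.K₂ (19 * r + 18) ((n : ℚ) / ((b * p.R : ℕ) : ℚ)) := by
  have hT18 : 2 ^ 18 < p.T := lt_of_lt_of_le (by norm_num) p.hT
  have hRpos := p.R_pos
  have hdvd : oddPrimorial p.T ^ 3 * 2 ^ (p.H + p.K₂) ∣ b * p.R := by
    apply Dvd.dvd.mul_left
    unfold Params.R
    rw [mul_comm]
    exact Nat.mul_dvd_mul_right (pow_dvd_pow 2 p.hM) _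
  have hDpos : 0 < b * p.R := Nat.mul_pos hb hRpos
  induction r with
  | zero =>
    intro n hn0 hn hG _
    have hn' : n ≤ 2 ^ p.H := by simpa using hn
    exact (finish p.S hT18 p.hAmax hn0 hn' (hG hn') hdvd hDpos).mono (by omega)
  | succ r ih =>
    intro n hn0 hn hG hnV
    by_cases hsmall : n ≤ 2 ^ p.H
    · exact (finish p.S hT18 p.hAmax hn0 hsmall (hG hsmall) hdvd hDpos).mono (by omega)
    · obtain ⟨n₁, hn₁0, hn₁U, hn₁G, hrep⟩ := round p hb (by omega) hbn hnV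
      have hτ := p.hτ
      have h2τ : 2 ^ p.τ = 2 * 2 ^ (p.τ - 1) := by
        rw [← pow_succ']; congr 1; omega
      have hhalf : n₁ * 2 ^ (p.τ - 1) ≤ n := by
        rw [h2τ] at hn₁U
        have : 2 * (n₁ * 2 ^ (p.τ - 1)) ≤ 2 * n := by
          calc 2 * (n₁ * 2 ^ (p.τ - 1)) = n₁ * (2 * 2 ^ (p.τ - 1)) := by ring
            _ ≤ _ := hn₁U
        omega
      have hn₁le : n₁ ≤ n := by
        have : 1 ≤ 2 ^ (p.τ - 1) := Nat.one_le_two_pow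
        calc n₁ = n₁ * 1 := by ring
          _ ≤ n₁ * 2 ^ (p.τ - 1) := Nat.mul_le_mul_left _ this
          _ ≤ n := hhalf
      have hfuel : n₁ ≤ 2 ^ p.H * (2 ^ (p.τ - 1)) ^ r := by
        have hpos : 0 < 2 ^ (p.τ - 1) := by positivity
        apply Nat.le_of_mul_le_mul_right _ hpos
        calc n₁ * 2 ^ (p.τ - 1) ≤ n := hhalf
          _ ≤ 2 ^ p.H * (2 ^ (p.τ - 1)) ^ (r + 1) := hn
          _ = _ := by rw [pow_succ]; ring
      have hV : n₁ * (2 ^ p.K₂ * 2 ^ p.τ) ≤ b * p.R :=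
        (Nat.mul_le_mul_right _ hn₁le).trans hnV
      have hih := ih n₁ hn₁0 hfuel hn₁G hV
      have := hrep.add hih
      rw [sub_add_cancel] at this
      exact this.mono (by omega)

end Crest.Agent.S0025Lib
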